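import Vale.Agent.P284.H747.W

/-!
# P284: the abstract lemma applied to the Dirac operator
-/

open scoped Manifold ContDiff ComplexOrder Topology Matrix ComplexConjugate
open MeasureTheory Set Filter
open Vale.Agent.P272.K Vale.Agent.P272.K.C2 Vale.Agent.P299.H954 Vale.Agent.P299.IX
open Vale.Agent.P301.H599 Vale.Agent.P299.H863 Vale.Agent.P301.H862
open Vale.Agent.P299.IX.Fock

set_option linter.unusedSectionVars false

noncomputable section

namespace Vale.Agent.P284.H747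

variable {n : ℕ} {X : Type} [TopologicalSpace X] [ChartedSpace (Cm n) X]
  [IsManifold 𝓘(ℂ, Cm n) ω X] [CompactSpace X] [T2Space X] {ι : Type}

theorem Dd_Dd (B : HB n X ι) (s : B.S) : B.Dd (B.Dd s) = 0 := by
  have h1 : ∀ t : B.S, inner ℂ (B.Dd (B.Dd s)) t = 0 := by
    intro t
    have h2 : ∀ u v : B.S, inner ℂ (B.Dd u) v = inner ℂ u (B.Dp v) := by
      intro u v
      have := HB.inner_Dp (B := B) v u
      rw [← inner_conj_symm, ← this, inner_conj_symm]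
    rw [h2, h2, HB.Dp_Dp, inner_zero_right]
  exact inner_self_eq_zero.1 (h1 _)

/-- the projection to degree `n - 2` -/
def P2 (B : HB n X ι) : B.S →ₗ[ℂ] B.S := if 2 ≤ n then B.dg (n - 2) else 0

theorem D_top (B : HB n X ι) (s : B.S) : B.D (B.dg n s) = B.Dd (B.dg n s) := by
  rw [HB.D_eq, HB.Dp_dg, HB.dg_big (n + 1) (Nat.lt_succ_self n), zero_add]

theorem oproj_dg (B : HB n X ι) (p : ℕ) : OProj ℂ (B.dg p) where
  idem u := by rw [HB.dg_dg, if_pos rfl]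
  symm := HB.dg_symm p

theorem oproj_P2 (B : HB n X ι) : OProj ℂ (P2 B) := by
  unfold P2
  split_ifs with h
  · exact oproj_dg B _
  · exact ⟨fun u => by simp, fun u v => by simp⟩

theorem P2_Dd (hn : 1 ≤ n) (B : HB n X ι) (s : B.S) :
    P2 B (B.D (B.dg (n - 1) s)) = B.Dd (B.dg (n - 1) s) := by
  unfold P2
  rcases Nat.lt_or_ge n 2 with h | h
  · have h1 : n = 1 := by omega
    rw [if_neg (by omega), LinearMap.zero_apply]
    subst h1
    exact (HB.Dd_dg_zero s).symm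
  · rw [if_pos h, HB.D_eq, map_add, HB.Dp_dg]
    obtain ⟨m, rfl⟩ : ∃ m, n = m + 2 := ⟨n - 2, by omega⟩
    have h1 : m + 2 - 2 = m := by omega
    have h2 : m + 2 - 1 = m + 1 := by omega
    rw [h1, h2, HB.dg_dg, if_neg (by omega), zero_add, HB.Dd_dg_succ, HB.dg_dg, if_pos rfl]

theorem ab_app (hAB : Spec_AB) (hn : 1 ≤ n) (B : HB n X ι) {N : ℕ} (ℓ : Fin N → B.S →L[ℂ] ℂ)
    {lam mu K : ℝ} (hlam : 0 < lam) (hmu : mu < lam)
    (h1 : ∀ v, B.dg (n - 1) v = v → lam * ‖v‖ ^ 2 ≤ ‖B.D v‖ ^ 2 + K * ∑ i, ‖ℓ i v‖ ^ 2)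
    {W : Submodule ℂ B.S} (hfd : FiniteDimensional ℂ W) (hW : ∀ u ∈ W, B.dg n u = u)
    (hWD : ∀ u ∈ W, ‖B.D u‖ ^ 2 ≤ mu * ‖u‖ ^ 2) :
    ∃ K' : Submodule ℂ B.S, FiniteDimensional ℂ K' ∧ (∀ u ∈ K', B.dg n u = u ∧ B.D u = 0) ∧
      Module.finrank ℂ W ≤ Module.finrank ℂ K' + N := by
  have h01 : ∀ u, B.dg n (B.dg (n - 1) u) = 0 := fun u => by
    rw [HB.dg_dg, if_neg (by omega)]
  have h02 : ∀ u, B.dg n (P2 B u) = 0 := fun u => by
    unfold P2
    split_ifs with h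
    · rw [HB.dg_dg, if_neg (by omega)]
    · simp
  have h12 : ∀ u, B.dg (n - 1) (P2 B u) = 0 := fun u => by
    unfold P2
    split_ifs with h
    · rw [HB.dg_dg, if_neg (by omega)]
    · simp
  have hd0 : ∀ u, B.dg (n - 1) (B.D (B.dg n u)) = B.D (B.dg n u) := fun u => by
    rw [D_top]
    obtain ⟨m, rfl⟩ : ∃ m, n = m + 1 := ⟨n - 1, by omega⟩
    rw [Nat.add_sub_cancel, HB.Dd_dg_succ, HB.dg_dg, if_pos rfl]
  have hd1 : ∀ u, B.dg n (B.D (B.dg (n - 1) u)) + P2 B (B.D (B.dg (n - 1) u)) =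
      B.D (B.dg (n - 1) u) := fun u => by
    rw [P2_Dd hn, HB.D_eq, map_add]
    have e1 : B.dg n (B.Dp (B.dg (n - 1) u)) = B.Dp (B.dg (n - 1) u) := by
      rw [HB.Dp_dg, Nat.sub_add_cancel hn, HB.dg_dg, if_pos rfl]
    have e2 : B.dg n (B.Dd (B.dg (n - 1) u)) = 0 := by
      rcases Nat.lt_or_ge n 2 with h | h
      · have h1 : n = 1 := by omega
        subst h1
        have : B.Dd (B.dg (1 - 1) u) = 0 := HB.Dd_dg_zero u
        rw [this, map_zero]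
      · obtain ⟨m, rfl⟩ : ∃ m, n = m + 2 := ⟨n - 2, by omega⟩
        have h2 : m + 2 - 1 = m + 1 := by omega
        rw [h2, HB.Dd_dg_succ, HB.dg_dg, if_neg (by omega)]
    rw [e1, e2, add_zero]
  have hdd : ∀ u, P2 B (B.D (B.D (B.dg n u))) = 0 := fun u => by
    rw [← hd0, P2_Dd hn, hd0, D_top, Dd_Dd]
  have hdd1 : ∀ u, B.dg (n - 1) (B.D (P2 B (B.D (B.dg (n - 1) u)))) =
      B.D (P2 B (B.D (B.dg (n - 1) u))) := fun u => by
    rw [P2_Dd hn, HB.D_eq, Dd_Dd, add_zero]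
    rcases Nat.lt_or_ge n 2 with h | h
    · have h1 : n = 1 := by omega
      subst h1
      have : B.Dd (B.dg (1 - 1) u) = 0 := HB.Dd_dg_zero u
      rw [this, map_zero, map_zero]
    · obtain ⟨m, rfl⟩ : ∃ m, n = m + 2 := ⟨n - 2, by omega⟩
      have h2 : m + 2 - 1 = m + 1 := by omega
      rw [h2, HB.Dd_dg_succ, HB.Dp_dg, HB.dg_dg, if_pos rfl]
  exact hAB B.S B.D (B.dg n) (B.dg (n - 1)) (P2 B) B.ell.J HB.D_symm (oproj_dg B _)
    (oproj_dg B _) (oproj_P2 B) h01 h02 h12 hd0 hd1 hdd hdd1 B.ell.smoothing B.ell.comm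
    (fun v hv hc hD => reg_top B hv hc hD) N ℓ lam mu K hlam hmu h1 W hfd hW hWD

end Vale.Agent.P284.H747
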