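import Vale.Agent.P284.H747.Spec
import Vale.Agent.P301.H862.EllS
import Vale.Agent.P301.H862.Mul

/-!
# P284: the line bundles `kL - K` with their metrics, on the library `HB` of `P301.H862`
-/

open scoped Manifold ContDiff ComplexOrder Topology Matrix ComplexConjugate
open MeasureTheory Set Filter
open Vale.Agent.P272.K Vale.Agent.P272.K.C2 Vale.Agent.P299.H954 Vale.Agent.P299.IX
open Vale.Agent.P301.H599 Vale.Agent.P299.H863 Vale.Agent.P301.H862
open Vale.Agent.P299.IX.Fock
open Vale.Agent.P272.K.INT (intX IsDensity intX_add intX_sub intX_const_mul intX_congr intX_nonneg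
  intX_mono intX_of_support intX_sum)

set_option linter.unusedSectionVars false

noncomputable section

namespace Vale.Agent.P284.H747

section bundle

variable {n : ℕ} {X : Type} [TopologicalSpace X] [ChartedSpace (Cm n) X]

theorem isOpen_at (e : Chart n X) : IsOpen {x | P272.K.At e x} := by
  by_cases he : e ∈ atlas (Cm n) X
  · have : {x | P272.K.At e x} = e.source := by
      ext x; exact ⟨fun h => h.2, fun h => ⟨he, h⟩⟩
    rw [this]; exact e.open_source
  · have : {x | P272.K.At e x} = ∅ := by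
      ext x; exact ⟨fun h => he h.1, fun h => h.elim⟩
    rw [this]; exact isOpen_empty

theorem near_at {e i : Chart n X} {x : X} (he : P272.K.At e x) (hi : P272.K.At i x) :
    ∀ᶠ z in 𝓝 (e x), P272.K.At e (e.symm z) ∧ P272.K.At i (e.symm z) ∧ e (e.symm z) = z := by
  have h1 : ContinuousAt e.symm (e x) := e.continuousAt_symm he.mem_target
  have h2 : ∀ᶠ z in 𝓝 (e x), e.symm z ∈ {x | P272.K.At i x} :=
    h1.eventually_mem (by rw [he.left_inv]; exact (isOpen_at i).mem_nhds hi)
  filter_upwards [he.nhds_target, h2] with z hz hz2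
  exact ⟨P272.K.At.of_target he.1 hz, hz2, e.right_inv hz⟩

variable [IsManifold 𝓘(ℂ, Cm n) ω X]

theorem comp_chart {E : Type*} [NormedAddCommGroup E] [NormedSpace ℂ E] {F : X → E}
    {e i : Chart n X} {x : X} (he : P272.K.At e x) (hi : P272.K.At i x)
    (h : ContDiffAt ℂ ω (fun z => F (i.symm z)) (i x)) :
    ContDiffAt ℂ ω (fun z => F (e.symm z)) (e x) := by
  have h1 : ContDiffAt ℂ ω (fun z => i (e.symm z)) (e x) := transition he hi
  have h2 : ContDiffAt ℂ ω (fun z => F (i.symm z)) (i (e.symm (e x))) := by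
    rw [he.left_inv]; exact h
  refine (h2.comp (e x) h1).congr_of_eventuallyEq ?_
  filter_upwards [near_at he hi] with z hz
  simp only [Function.comp_apply]
  rw [hz.2.1.left_inv]

theorem comp_chart_real {E : Type*} [NormedAddCommGroup E] [NormedSpace ℝ E] {F : X → E}
    {e i : Chart n X} {x : X} (he : P272.K.At e x) (hi : P272.K.At i x)
    (h : ContDiffAt ℝ ∞ (fun z => F (i.symm z)) (i x)) :
    ContDiffAt ℝ ∞ (fun z => F (e.symm z)) (e x) := by
  have h1 : ContDiffAt ℝ ∞ (fun z => i (e.symm z)) (e x) :=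
    Vale.Agent.P301.H862.contDiffAt_real (transition he hi)
  have h2 : ContDiffAt ℝ ∞ (fun z => F (i.symm z)) (i (e.symm (e x))) := by
    rw [he.left_inv]; exact h
  refine (h2.comp (e x) h1).congr_of_eventuallyEq ?_
  filter_upwards [near_at he hi] with z hz
  simp only [Function.comp_apply]
  rw [hz.2.1.left_inv]

variable {c : Chart n X → Chart n X → X → ℂ}

/-- the line bundle `kL - K` -/
def lb (hc : IsCoc c) (k : ℕ) : LineBundle n X (Chart n X) where
  U e := {x | P272.K.At e x}
  isOpen e := isOpen_at e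
  cover x := ⟨chartAt _ x, chart_mem_atlas _ _, mem_chart_source _ _⟩
  g e e' x := (c e e' x ^ k * (jacM e e' x).det)⁻¹
  holo i j e x h hi hj := by
    have h1 : ContDiffAt ℂ ω (fun z => c i j (e.symm z)) (e x) := comp_chart h hi (hc.an i j x hi hj)
    have h2 : ContDiffAt ℂ ω (fun z => (jacM i j (e.symm z)).det) (e x) := by
      have h3 : ∀ p q, ContDiffAt ℂ ω (fun z => jacM i j (e.symm z) p q) (e x) := fun p q =>
        comp_chart (F := fun y => jacM i j y p q) h hi (jacM_holo hi hj p q)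
      have h4 : (fun z => (jacM i j (e.symm z)).det) = fun z => ∑ σ : Equiv.Perm (Fin n),
          (Equiv.Perm.sign σ : ℂ) * ∏ a, jacM i j (e.symm z) (σ a) a := by
        funext z; rw [Matrix.det_apply']
      rw [h4]
      exact ContDiffAt.sum fun σ _ => contDiffAt_const.mul (contDiffAt_prod fun a _ => h3 _ _)
    refine (((h1.pow k).mul h2).inv ?_).analyticAt
    show c i j (e.symm (e x)) ^ k * (jacM i j (e.symm (e x))).det ≠ 0
    rw [h.left_inv]
    exact mul_ne_zero (pow_ne_zero k (hc.ne i j x hi hj)) (jacM_det_ne_zero hi hj)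
  ne_zero i j x hi hj := inv_ne_zero
    (mul_ne_zero (pow_ne_zero k (hc.ne i j x hi hj)) (jacM_det_ne_zero hi hj))
  cocycle i j l x hi hj hl := by
    rw [← mul_inv, ← hc.mul i j l x hi hj hl, jacM_comp hi hj hl, Matrix.det_mul, mul_pow]
    congr 1
    ring

variable {φ : Chart n X → Cm n → ℝ} {w : Chart n X → Cm n → Matrix (Fin n) (Fin n) ℂ}

/-- the weights of the metric -/
def rk (φ : Chart n X → Cm n → ℝ) (w : Chart n X → Cm n → Matrix (Fin n) (Fin n) ℂ) (k : ℕ) :
    Chart n X → X → ℝ := fun e x => k * φ e (e x) - Real.log ((w e (e x)).det.re)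

theorem det_change (hw : IsKahler w) {e e' : Chart n X} {x : X} (h : P272.K.At e x)
    (h' : P272.K.At e' x) :
    (w e (e x)).det.re = ‖(jacM e e' x).det‖ ^ 2 * (w e' (e' x)).det.re := by
  rw [hw.change e e' x h h', Matrix.det_mul, Matrix.det_mul, Matrix.det_transpose]
  have h1 : ((jacM e e' x).map (starRingEnd ℂ)).det = (starRingEnd ℂ) (jacM e e' x).det := by
    rw [RingHom.map_det]; rfl
  rw [h1]
  have h2 : (jacM e e' x).det * (w e' (e' x)).det * (starRingEnd ℂ) (jacM e e' x).det =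
      ((‖(jacM e e' x).det‖ ^ 2 : ℝ) : ℂ) * (w e' (e' x)).det := by
    rw [← Complex.normSq_eq_norm_sq, ← Complex.mul_conj]; ring
  rw [h2, Complex.re_ofReal_mul]

theorem smooth_logdet (hw : IsKahler w) {e : Chart n X} {x : X} (h : P272.K.At e x) :
    ContDiffAt ℝ ∞ (fun z => Real.log ((w e z).det.re)) (e x) := by
  have hm : MC ∞ (w e) (e x) := fun p q => hw.smooth e x h p q
  have h1 : ContDiffAt ℝ ∞ (fun z => (w e z).det.re) (e x) :=
    Complex.reCLM.contDiff.contDiffAt.comp (e x) hm.det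
  exact h1.log (C2.det_re_pos (hw.posDef e x h)).ne'

theorem wt_rk (φ : Chart n X → Cm n → ℝ)
    (w : Chart n X → Cm n → Matrix (Fin n) (Fin n) ℂ) (k : ℕ) {e : Chart n X} {x : X}
    (h : P272.K.At e x) :
    wt (rk φ w k) e e =ᶠ[𝓝 (e x)] fun z => k * φ e z - Real.log ((w e z).det.re) := by
  filter_upwards [near_at h h] with z hz
  show (k : ℝ) * φ e (e (e.symm z)) - Real.log ((w e (e (e.symm z))).det.re) = _
  rw [hz.2.2]

theorem rk_metric (hc : IsCoc c) (hφ : IsWt c φ) (hw : IsKahler w) (k : ℕ) :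
    IsMetric (lb hc k) (rk φ w k) where
  smooth i e x he hi := by
    refine comp_chart_real he hi ?_
    exact ((contDiffAt_const.mul (hφ.smooth i x hi)).sub (smooth_logdet hw hi)).congr_of_eventuallyEq
      (wt_rk φ w k hi)
  change i j x hi hj := by
    show (k : ℝ) * φ i (i x) - Real.log ((w i (i x)).det.re) =
      ((k : ℝ) * φ j (j x) - Real.log ((w j (j x)).det.re)) +
        Real.log (‖(c i j x ^ k * (jacM i j x).det)⁻¹‖ ^ 2)
    have hJ : (jacM i j x).det ≠ 0 := jacM_det_ne_zero hi hj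
    have hcx := hc.ne i j x hi hj
    have h1 := hφ.change i j x hi hj
    have hd := C2.det_re_pos (hw.posDef j x hj)
    have hJn : (0 : ℝ) < ‖(jacM i j x).det‖ ^ 2 := by have := norm_pos_iff.2 hJ; positivity
    have hcn : (0 : ℝ) < ‖c i j x‖ ^ 2 := by have := norm_pos_iff.2 hcx; positivity
    rw [det_change hw hi hj, Real.log_mul hJn.ne' hd.ne', h1, norm_inv, norm_mul, norm_pow]
    have h2 : ((‖c i j x‖ ^ k * ‖(jacM i j x).det‖)⁻¹) ^ 2 =
        ((‖c i j x‖ ^ 2) ^ k * ‖(jacM i j x).det‖ ^ 2)⁻¹ := by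
      rw [inv_pow, mul_pow, ← pow_mul, ← pow_mul, mul_comm k 2]
    rw [h2, Real.log_inv, Real.log_mul (pow_ne_zero k hcn.ne') hJn.ne',
      Real.log_pow (‖c i j x‖ ^ 2)]
    ring

/-- `kL - K` with its metric -/
def Bk (hc : IsCoc c) (hφ : IsWt c φ) (hw : IsKahler w) (k : ℕ) : HB n X (Chart n X) :=
  ⟨lb hc k, rk φ w k, w, rk_metric hc hφ hw k, hw⟩

end bundle

end Vale.Agent.P284.H747
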