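import Vale.Agent.P284.H747.Qlow

/-!
# P284: sections supported in a chart
-/

open scoped Manifold ContDiff ComplexOrder Topology Matrix ComplexConjugate
open MeasureTheory Set Filter
open Vale.Agent.P272.K Vale.Agent.P272.K.C2 Vale.Agent.P299.H954 Vale.Agent.P299.IX
open Vale.Agent.P301.H599 Vale.Agent.P299.H863 Vale.Agent.P301.H862
open Vale.Agent.P299.IX.Fock
open Vale.Agent.P272.K.INT (intX IsDensity intX_add intX_sub intX_const_mul intX_congr intX_nonneg
  intX_mono intX_of_support intX_sum)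

set_option linter.unusedSectionVars false

noncomputable section

namespace Vale.Agent.P284.H747

variable {n : ℕ} {X : Type} [TopologicalSpace X] [ChartedSpace (Cm n) X]
  [IsManifold 𝓘(ℂ, Cm n) ω X] [CompactSpace X] [T2Space X]
  {c : Chart n X → Chart n X → X → ℂ} {φ : Chart n X → Cm n → ℝ}
  {w : Chart n X → Cm n → Matrix (Fin n) (Fin n) ℂ}
  {hc : IsCoc c} {hφ : IsWt c φ} {hw : IsKahler w} {k : ℕ}

/-- the weight of `kL - K` in the notation of `Spec` -/
def Hk (φ : Cm n → ℝ) (w : Cm n → Matrix (Fin n) (Fin n) ℂ) (k : ℕ) : Cm n → ℂ :=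
  fun y => (Real.exp (-(k * φ y)) : ℂ) * (w y).det

theorem dom_eq {e : Chart n X} (he : e ∈ atlas (Cm n) X) : dom (lb hc k) e e = e.target := by
  ext z
  refine ⟨fun h => h.1, fun h => ⟨h, ?_⟩⟩
  exact ⟨he, e.map_target h⟩

theorem hw_eq_hp (hK : IsKahler w) (φ : Chart n X → Cm n → ℝ) (k : ℕ) {e : Chart n X}
    (he : e ∈ atlas (Cm n) X) {z : Cm n} (hz : z ∈ e.target) (u v : FI n → ℂ) :
    P301.H862.hw (wt (rk φ w k) e e) (w e) z u v = G.hp (Hk (φ e) (w e) k) (w e) z u v := by
  have hx : P272.K.At e (e.symm z) := P272.K.At.of_target he hz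
  have hd : 0 < (w e z).det.re := by
    have := C2.det_re_pos (hK.posDef e _ hx)
    rwa [e.right_inv hz] at this
  have hd' : (((w e z).det.re : ℝ) : ℂ) = (w e z).det := by
    have := C2.det_re_eq (hK.posDef e _ hx)
    rwa [e.right_inv hz] at this
  have h1 : wt (rk φ w k) e e z = k * φ e z - Real.log ((w e z).det.re) := by
    show (k : ℝ) * φ e (e (e.symm z)) - Real.log ((w e (e (e.symm z))).det.re) = _
    rw [e.right_inv hz]
  have h2 : Real.exp (-(k * φ e z - Real.log ((w e z).det.re))) =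
      Real.exp (-(k * φ e z)) * (w e z).det.re := by
    rw [neg_sub, sub_eq_neg_add, Real.exp_add, Real.exp_log hd]
  unfold P301.H862.hw hp P299.IX.rho G.hp G.rho Hk
  rw [h1, h2, zero_add, pow_one, Complex.ofReal_mul, hd']
  ring

/-- `s` vanishes off the closed subset `K` of the domain of `e` -/
structure Supp (s : (Bk hc hφ hw k).S) (e : Chart n X) (K : Set X) : Prop where
  mem : e ∈ atlas (Cm n) X
  closed : IsClosed K
  sub : K ⊆ e.source
  zero : ∀ i e' x, P272.K.At e' x → P272.K.At i x → x ∉ K → s.f i e' (e' x) = 0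

namespace Supp

variable {s t : (Bk hc hφ hw k).S} {e : Chart n X} {K : Set X}

theorem cpt (h : Supp s e K) : IsCompact (e '' K) :=
  h.closed.isCompact.image_of_continuousOn (e.continuousOn.mono h.sub)

theorem img_sub (h : Supp s e K) : e '' K ⊆ e.target := by
  rintro _ ⟨x, hx, rfl⟩; exact e.map_source (h.sub hx)

theorem off (h : Supp s e K) {z : Cm n} (hz : z ∉ e '' K) : s.f e e z = 0 := by
  by_cases hz' : z ∈ e.target
  · have h1 : P272.K.At e (e.symm z) := P272.K.At.of_target h.mem hz'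
    have h2 := h.zero e e (e.symm z) h1 h1 fun h3 => hz ⟨_, h3, e.right_inv hz'⟩
    rwa [e.right_inv hz'] at h2
  · exact s.off fun h1 => hz' h1.2.1

theorem tsupport_sub (h : Supp s e K) : tsupport (s.f e e) ⊆ e '' K :=
  closure_minimal (fun z hz => by
    by_contra h1; exact hz (h.off h1)) h.cpt.isClosed

theorem smooth (h : Supp s e K) : ContDiff ℝ ∞ (s.f e e) := by
  rw [contDiff_iff_contDiffAt]
  intro z
  by_cases hz : z ∈ e '' K
  · have hz' : z ∈ dom (lb hc k) e e := by rw [dom_eq h.mem]; exact h.img_sub hz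
    exact contDiffAt_pi.2 fun p => s.smoothAt (i := e) h.mem hz' p
  · refine (contDiffAt_const (c := (0 : FI n → ℂ))).congr_of_eventuallyEq ?_
    filter_upwards [h.cpt.isClosed.isOpen_compl.mem_nhds hz] with y hy using h.off hy

theorem near_off (h : Supp s e K) {z : Cm n} (hz : z ∉ e '' K) :
    s.f e e =ᶠ[𝓝 z] fun _ => 0 := by
  filter_upwards [h.cpt.isClosed.isOpen_compl.mem_nhds hz] with y hy using h.off hy

theorem norm_sq (h : Supp s e K) :
    ‖s‖ ^ 2 = ∫ z, (G.hp (Hk (φ e) (w e) k) (w e) z (s.f e e z) (s.f e e z)).re := by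
  have hD := (Bk hc hφ hw k).dens s.isSec s.isSec
  have h0 : ∀ i e' x, P272.K.At e' x → x ∈ (lb hc k).U i → x ∉ K →
      hX (rk φ w k) w s.f s.f i e' (e' x) = 0 := by
    intro i e' x hx hi hxK
    show P301.H862.hw _ _ _ (s.f i e' (e' x)) _ = 0
    rw [h.zero i e' x hx hi hxK, hw_zero_left]
  have h1 := intC_of_support hD h.mem h.closed h.sub (i := e)
    (fun x hx => ⟨h.mem, h.sub hx⟩) h0
  have hint := hD.integrableOn h.mem h.closed h.sub (i := e)
    (fun x hx => ⟨h.mem, h.sub hx⟩) h0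
  rw [HB.norm_sq_eq]
  show (P301.H862.intC (lb hc k) (hX (rk φ w k) w s.f s.f)).re = _
  have e0 : (∫ z in dom (lb hc k) e e, hX (rk φ w k) w s.f s.f e e z).re =
      ∫ z in dom (lb hc k) e e, (hX (rk φ w k) w s.f s.f e e z).re := (integral_re hint).symm
  have e1 : (P301.H862.intC (lb hc k) (hX (rk φ w k) w s.f s.f)) =
    ∫ z in dom (lb hc k) e e, hX (rk φ w k) w s.f s.f e e z := h1
  rw [e1, e0]
  have h2 : ∀ z ∉ dom (lb hc k) e e,
      (G.hp (Hk (φ e) (w e) k) (w e) z (s.f e e z) (s.f e e z)).re = 0 := by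
    intro z hz
    rw [s.off fun h1 => hz h1.2]
    simp [G.hp, pr]
  rw [← setIntegral_eq_integral_of_forall_compl_eq_zero h2]
  refine setIntegral_congr_fun (isOpen_dom _ _ _).measurableSet fun z hz => ?_
  show (P301.H862.hw _ _ _ _ _).re = _
  rw [hw_eq_hp hw φ k h.mem hz.1]

theorem grad (h : Supp s e K) :
    (Bk hc hφ hw k).grad s = ∫ z, (G.gradb (Hk (φ e) (w e) k) (w e) (s.f e e) (s.f e e) z).re := by
  have hD := s.isSec.isDens_gradX (Bk hc hφ hw k).metric (Bk hc hφ hw k).kahler s.isSec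
  have hz0 : ∀ i e' x, P272.K.At e' x → x ∈ (lb hc k).U i → x ∉ K →
      s.f i e' =ᶠ[𝓝 (e' x)] fun _ => 0 := by
    intro i e' x hx hi hxK
    have h1 : ∀ᶠ z in 𝓝 (e' x), e'.symm z ∈ Kᶜ := by
      refine (e'.continuousAt_symm hx.mem_target).eventually_mem ?_
      rw [hx.left_inv]
      exact h.closed.isOpen_compl.mem_nhds hxK
    filter_upwards [near_at hx hi, h1] with z hz hz1
    have := h.zero i e' (e'.symm z) hz.1 hz.2.1 hz1
    rwa [hz.2.2] at this
  have h0 : ∀ i e' x, P272.K.At e' x → x ∈ (lb hc k).U i → x ∉ K →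
      gradX (rk φ w k) w s.f s.f i e' (e' x) = 0 := by
    intro i e' x hx hi hxK
    show ∑ l, ∑ b, _ * P301.H862.hw _ _ _ (DVb b (s.f i e') (e' x)) (DVb l (s.f i e') (e' x)) = 0
    refine Finset.sum_eq_zero fun l _ => Finset.sum_eq_zero fun b _ => ?_
    rw [DVb_zero (hz0 i e' x hx hi hxK) (l := b), hw_zero_left, mul_zero]
  have h1 := intC_of_support hD h.mem h.closed h.sub (i := e)
    (fun x hx => ⟨h.mem, h.sub hx⟩) h0
  have hint := hD.integrableOn h.mem h.closed h.sub (i := e)
    (fun x hx => ⟨h.mem, h.sub hx⟩) h0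
  show (P301.H862.intC (lb hc k) (gradX (rk φ w k) w s.f s.f)).re = _
  have e0 : (∫ z in dom (lb hc k) e e, gradX (rk φ w k) w s.f s.f e e z).re =
      ∫ z in dom (lb hc k) e e, (gradX (rk φ w k) w s.f s.f e e z).re := (integral_re hint).symm
  have e1 : (P301.H862.intC (lb hc k) (gradX (rk φ w k) w s.f s.f)) =
    ∫ z in dom (lb hc k) e e, gradX (rk φ w k) w s.f s.f e e z := h1
  rw [e1, e0]
  have h2 : ∀ z ∉ dom (lb hc k) e e,
      (G.gradb (Hk (φ e) (w e) k) (w e) (s.f e e) (s.f e e) z).re = 0 := by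
    intro z hz
    rw [dom_eq h.mem] at hz
    have h3 := h.near_off fun h4 => hz (h.img_sub h4)
    have h4 : G.gradb (Hk (φ e) (w e) k) (w e) (s.f e e) (s.f e e) z = 0 := by
      refine Finset.sum_eq_zero fun l _ => Finset.sum_eq_zero fun b _ => ?_
      rw [DVb_zero h3 (l := b)]
      simp [G.hp, pr]
    rw [h4, Complex.zero_re]
  rw [← setIntegral_eq_integral_of_forall_compl_eq_zero h2]
  refine setIntegral_congr_fun (isOpen_dom _ _ _).measurableSet fun z hz => ?_
  show (∑ l, ∑ b, (w e z)⁻¹ b l * P301.H862.hw (wt (rk φ w k) e e) (w e) z (DVb b (s.f e e) z)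
    (DVb l (s.f e e) z)).re = _
  simp only [hw_eq_hp hw φ k h.mem hz.1]
  rfl

end Supp

/-! ### linear functionals -/

/-- integration over a compact subset of a chart against a bounded function -/
def lfun (hc : IsCoc c) (hφ : IsWt c φ) (hw : IsKahler w) (k : ℕ) (e : Chart n X)
    (K : Set (Cm n)) (h : Cm n → FI n → ℂ) (s : (Bk hc hφ hw k).S) : ℂ :=
  ∫ z in K, ∑ i, s.f e e z i * h z i

section lf

variable {e : Chart n X} {K : Set (Cm n)} {h : Cm n → FI n → ℂ}

theorem lf_int (he : e ∈ atlas (Cm n) X) (hK : IsCompact K) (hKe : K ⊆ e.target)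
    (hm : Measurable h) {M : ℝ} (hM : ∀ z i, ‖h z i‖ ≤ M) (s : (Bk hc hφ hw k).S) (i : FI n) :
    IntegrableOn (fun z => s.f e e z i * h z i) K := by
  have h1 : ContinuousOn (fun z => s.f e e z i) K := by
    intro z hz
    have hz' : z ∈ dom (lb hc k) e e := by rw [dom_eq he]; exact hKe hz
    exact (s.smoothAt (i := e) he hz' i).continuousAt.continuousWithinAt
  have h2 : IntegrableOn (fun z => s.f e e z i) K := h1.integrableOn_compact hK
  exact Integrable.mul_bdd (c := M) h2 (((measurable_pi_apply i).comp hm).aestronglyMeasurable)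
    (Eventually.of_forall fun z => hM z i)

theorem exists_lf (he : e ∈ atlas (Cm n) X) (hK : IsCompact K) (hKe : K ⊆ e.target)
    (hm : Measurable h) {M : ℝ} (hM : ∀ z i, ‖h z i‖ ≤ M) :
    ∃ l : (Bk hc hφ hw k).S →L[ℂ] ℂ, ∀ s, l s = lfun hc hφ hw k e K h s := by
  have hM0 : 0 ≤ M := (norm_nonneg _).trans (hM 0 ∅)
  have hKd : K ⊆ dom (lb hc k) e e := by rw [dom_eq he]; exact hKe
  let f : (Bk hc hφ hw k).S →ₗ[ℂ] ℂ :=
    { toFun := lfun hc hφ hw k e K h
      map_add' := fun s t => by
        unfold lfun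
        rw [← integral_add (integrable_finsetSum _ fun i _ => lf_int he hK hKe hm hM s i)
          (integrable_finsetSum _ fun i _ => lf_int he hK hKe hm hM t i)]
        congr 1
        funext z
        rw [← Finset.sum_add_distrib]
        refine Finset.sum_congr rfl fun i _ => ?_
        show (s.f e e z i + t.f e e z i) * h z i = _
        ring
      map_smul' := fun a s => by
        unfold lfun
        rw [RingHom.id_apply, smul_eq_mul, ← integral_const_mul]
        congr 1
        funext z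
        rw [Finset.mul_sum]
        refine Finset.sum_congr rfl fun i _ => ?_
        show (a * s.f e e z i) * h z i = _
        ring }
  have hG := ((Bk hc hφ hw k).contDiffOn_GG e he).continuousOn.mono hKd
  obtain ⟨m, hm0, hmb⟩ := exists_lower hK hG fun z hz v hv => by
    rw [HB.inner_GG]
    exact hw_pos ((Bk hc hφ hw k).katz he (hKd hz)) fun h => hv (by ext j; exact congrFun h j)
  have hb : ∃ C, ∀ s, ‖f s‖ ≤ C * ‖s‖ := by
    refine LinearMap.bound_of_ball_bound (r := 1) one_pos
      (M * ((Fintype.card (FI n) : ℝ) * (volume K).toReal + 1 / m)) f fun s hs => ?_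
    have hs1 : ‖s‖ ≤ 1 := by
      have := Metric.mem_ball.1 hs
      rw [dist_zero_right] at this
      exact this.le
    have hD := (Bk hc hφ hw k).dens s.isSec s.isSec
    obtain ⟨hi1, hi2⟩ := setIntegral_le_intC hD
      (fun i e x hx hi => hw_nonneg (kat (Bk hc hφ hw k).kahler hx) _) he (i := e) hK hKd
    have h1 : ∀ z ∈ K, ‖∑ i, s.f e e z i * h z i‖ ≤ M * ((Fintype.card (FI n) : ℝ) +
        (hX (rk φ w k) w s.f s.f e e z).re / m) := by
      intro z hz
      have h2 := hmb z hz (WithLp.toLp 2 (s.f e e z))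
      rw [HB.inner_GG, EuclideanSpace.norm_sq_eq] at h2
      have h3 : ∑ i, ‖s.f e e z i‖ ^ 2 ≤ (hX (rk φ w k) w s.f s.f e e z).re / m := by
        rw [le_div_iff₀ hm0, mul_comm]; exact h2
      calc ‖∑ i, s.f e e z i * h z i‖ ≤ ∑ i, ‖s.f e e z i * h z i‖ := norm_sum_le _ _
        _ ≤ ∑ i, (1 + ‖s.f e e z i‖ ^ 2) * M := by
          refine Finset.sum_le_sum fun i _ => ?_
          rw [norm_mul]
          refine mul_le_mul ?_ (hM z i) (norm_nonneg _) (by positivity)
          nlinarith [sq_nonneg (‖s.f e e z i‖ - 1), norm_nonneg (s.f e e z i)]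
        _ = M * ((Fintype.card (FI n) : ℝ) + ∑ i, ‖s.f e e z i‖ ^ 2) := by
          rw [← Finset.sum_mul, Finset.sum_add_distrib]
          simp only [Finset.sum_const, Finset.card_univ, nsmul_eq_mul, mul_one]
          ring
        _ ≤ _ := by gcongr
    have hcst : IntegrableOn (fun _ : Cm n => (Fintype.card (FI n) : ℝ)) K :=
      integrableOn_const (hK.measure_lt_top.ne)
    have h4 : IntegrableOn (fun z => M * ((Fintype.card (FI n) : ℝ) +
        (hX (rk φ w k) w s.f s.f e e z).re / m)) K :=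
      Integrable.const_mul (Integrable.add hcst (hi1.re.div_const m)) M
    have h5 : ‖f s‖ ≤ ∫ z in K, M * ((Fintype.card (FI n) : ℝ) +
        (hX (rk φ w k) w s.f s.f e e z).re / m) := by
      refine norm_integral_le_of_norm_le h4 ?_
      exact (ae_restrict_iff' hK.measurableSet).2 (Eventually.of_forall h1)
    refine h5.trans ?_
    rw [integral_const_mul]
    refine mul_le_mul_of_nonneg_left ?_ hM0
    have hre : IntegrableOn (fun z => (hX (rk φ w k) w s.f s.f e e z).re / m) K :=
      hi1.re.div_const m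
    rw [integral_add hcst hre, integral_div, setIntegral_const, smul_eq_mul,
      mul_comm (Measure.real _ _)]
    refine add_le_add le_rfl ?_
    refine div_le_div_of_nonneg_right ?_ hm0.le
    refine hi2.trans ?_
    have h6 : ‖s‖ ^ 2 = (P301.H862.intC (lb hc k) (hX (rk φ w k) w s.f s.f)).re :=
      HB.norm_sq_eq (B := Bk hc hφ hw k) s
    have h7 : ‖s‖ ^ 2 ≤ 1 := by nlinarith [norm_nonneg s]
    exact h6.symm.trans_le h7
  exact ⟨f.mkContinuousOfExistsBound hb, fun s => rfl⟩

end lf

end Vale.Agent.P284.H747
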