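import Vale.Agent.P284.H747.Fns

/-!
# P284: the estimate in degree `n - 1`
-/

open scoped Manifold ContDiff ComplexOrder Topology Matrix ComplexConjugate
open MeasureTheory Set Filter
open Vale.Agent.P272.K Vale.Agent.P272.K.C2 Vale.Agent.P299.H954 Vale.Agent.P299.IX
open Vale.Agent.P301.H599 Vale.Agent.P299.H863 Vale.Agent.P301.H862
open Vale.Agent.P299.IX.Fock

set_option linter.unusedSectionVars false

noncomputable section

namespace Vale.Agent.P284.H747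

variable {n : ℕ} {X : Type} [TopologicalSpace X] [ChartedSpace (Cm n) X]
  [IsManifold 𝓘(ℂ, Cm n) ω X] [CompactSpace X] [T2Space X]
  {c : Chart n X → Chart n X → X → ℂ} {φ : Chart n X → Cm n → ℝ}
  {w : Chart n X → Cm n → Matrix (Fin n) (Fin n) ℂ}
  {hc : IsCoc c} {hφ : IsWt c φ} {hw : IsKahler w} {k : ℕ}

theorem norm_D_eq {ι : Type} (B : HB n X ι) (s : B.S) : ‖B.D s‖ ^ 2 = B.qf s + B.grad s := by
  rw [HB.norm_D_sq, HB.bkn]

/-- the estimate for a section with support in a chart -/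
theorem chart_est {C : ℝ} (hC : ∀ (e : Chart n X) x, P272.K.At e x →
    ((C : ℂ) • w e (e x) - cHess (fun z => Real.log ((w e z).det.re)) (e x)).PosSemidef)
    (hn : 1 ≤ n) {v : (Bk hc hφ hw k).S} {e : Chart n X} {T : Set X} (hS : Supp v e T)
    (hv : (Bk hc hφ hw k).dg (n - 1) v = v)
    (hp : ∀ (e : Chart n X) x, P272.K.At e x → (w e (e x) + cHess (φ e) (e x)).PosSemidef)
    {N : ℕ} {h : Fin N → Cm n → FI n → ℂ} {K : ℝ}
    (hest : 2 * k * (∫ z, (G.hp (Hk (φ e) (w e) k) (w e) z (v.f e e z) (v.f e e z)).re) ≤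
      (∫ z, (G.gradb (Hk (φ e) (w e) k) (w e) (v.f e e) (v.f e e) z).re) +
        K * ∑ j, ‖∫ z, ∑ l, v.f e e z l * h j z l‖ ^ 2) :
    (k - C) * ‖v‖ ^ 2 ≤ ‖(Bk hc hφ hw k).D v‖ ^ 2 +
      K * ∑ j, ‖lfun hc hφ hw k e (e '' T) (h j) v‖ ^ 2 := by
  have hn0 : Nonempty X ∨ IsEmpty X := (isEmpty_or_nonempty X).symm
  have h1 : (k * (-1) - C) * ‖v‖ ^ 2 ≤ (Bk hc hφ hw k).qf v := by
    refine qf_ge_k hC hn hv fun x => ?_
    have hx : P272.K.At (chartAt (Cm n) x) x := ⟨chart_mem_atlas _ _, mem_chart_source _ _⟩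
    refine ⟨_, hx, fun _ => ?_⟩
    have h2 := hp _ x hx
    have h3 : cHess (φ (chartAt (Cm n) x)) ((chartAt (Cm n) x) x) -
        ((-1 : ℝ) : ℂ) • w (chartAt (Cm n) x) ((chartAt (Cm n) x) x) =
        w (chartAt (Cm n) x) ((chartAt (Cm n) x) x) +
          cHess (φ (chartAt (Cm n) x)) ((chartAt (Cm n) x) x) := by
      push_cast; module
    rw [h3]
    exact h2
  have h2 := norm_D_eq (Bk hc hφ hw k) v
  rw [hS.norm_sq] at h1 ⊢
  rw [h2, hS.grad]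
  have h3 : ∀ j, lfun hc hφ hw k e (e '' T) (h j) v = ∫ z, ∑ l, v.f e e z l * h j z l := by
    intro j
    unfold lfun
    refine setIntegral_eq_integral_of_forall_compl_eq_zero fun z hz => ?_
    refine Finset.sum_eq_zero fun l _ => ?_
    rw [hS.off hz, Pi.zero_apply, zero_mul]
  simp only [h3]
  linarith

/-- multiplication as a continuous linear map -/
theorem norm_ml_le {M : ℕ} {χ : Fin M → X → ℝ} (hχ : ∀ a, SmR n (χ a))
    (h1 : ∀ x, ∑ a, χ a x ^ 2 = 1) {ι : Type} (B : HB n X ι) (a : Fin M) (s : B.S) :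
    ‖ml B (χ a) (hχ a) s‖ ≤ 1 * ‖s‖ := by
  have h2 := sum_norm_ml (B := B) hχ h1 s
  have h3 : ‖ml B (χ a) (hχ a) s‖ ^ 2 ≤ ‖s‖ ^ 2 := by
    rw [← h2]
    exact Finset.single_le_sum (f := fun a => ‖ml B (χ a) (hχ a) s‖ ^ 2)
      (fun a _ => sq_nonneg _) (Finset.mem_univ a)
  rw [one_mul]
  exact abs_le_of_sq_le_sq' h3 (norm_nonneg _) |>.2

theorem supp_ml {χ : X → ℝ} (hχ : SmR n χ) {e : Chart n X} (he : e ∈ atlas (Cm n) X)
    (hs : tsupport χ ⊆ e.source) (s : (Bk hc hφ hw k).S) :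
    Supp (ml (Bk hc hφ hw k) χ hχ s) e (tsupport χ) where
  mem := he
  closed := isClosed_tsupport _
  sub := hs
  zero i e' x hx hi hxK := by
    rw [ml_at hχ s hx (i := i) hi, image_eq_zero_of_notMem_tsupport hxK]
    simp

theorem est_main {M : ℕ} {χ : Fin (M + 1) → X → ℝ} (hχ : ∀ a, SmR n (χ a))
    (h1 : ∀ x, ∑ a, χ a x ^ 2 = 1) {e : Fin M → Chart n X} (he : ∀ i, e i ∈ atlas (Cm n) X)
    (hsupp : ∀ i : Fin M, tsupport (χ i.succ) ⊆ (e i).source) (hn : 1 ≤ n)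
    {C : ℝ} (hC : ∀ (e : Chart n X) x, P272.K.At e x →
    ((C : ℂ) • w e (e x) - cHess (fun z => Real.log ((w e z).det.re)) (e x)).PosSemidef)
    (hp : ∀ (e : Chart n X) x, P272.K.At e x → (w e (e x) + cHess (φ e) (e x)).PosSemidef)
    (h0 : ∀ (e : Chart n X) x, P272.K.At e x → χ 0 x ≠ 0 →
      (2 • cHess (φ e) (e x) - w e (e x)).PosSemidef)
    {CI : ℝ} (hCI : ∀ s : (Bk hc hφ hw k).S,
      ∑ a, ‖(Bk hc hφ hw k).D (ml (Bk hc hφ hw k) (χ a) (hχ a) s)‖ ^ 2 ≤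
        ‖(Bk hc hφ hw k).D s‖ ^ 2 + CI * ‖s‖ ^ 2)
    {N : Fin M → ℕ} {h : ∀ i, Fin (N i) → Cm n → FI n → ℂ} {K : Fin M → ℝ} (hK : ∀ i, 0 ≤ K i)
    (hm : ∀ i j, Measurable (h i j)) (hb : ∀ i j, ∃ M : ℝ, ∀ z l, ‖h i j z l‖ ≤ M)
    (hest : ∀ i, ∀ v : Cm n → FI n → ℂ, ContDiff ℝ ∞ v → tsupport v ⊆ e i '' tsupport (χ i.succ) →
      2 * k * (∫ z, (G.hp (Hk (φ (e i)) (w (e i)) k) (w (e i)) z (v z) (v z)).re) ≤
      (∫ z, (G.gradb (Hk (φ (e i)) (w (e i)) k) (w (e i)) v v z).re) +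
        K i * ∑ j, ‖∫ z, ∑ l, v z l * h i j z l‖ ^ 2) :
    ∃ ℓ : ∀ i, Fin (N i) → (Bk hc hφ hw k).S →L[ℂ] ℂ, ∀ s : (Bk hc hφ hw k).S,
      (Bk hc hφ hw k).dg (n - 1) s = s →
        (k / 2 - C - CI) * ‖s‖ ^ 2 ≤ ‖(Bk hc hφ hw k).D s‖ ^ 2 +
          (∑ i, K i) * ∑ i, ∑ j, ‖ℓ i j s‖ ^ 2 := by
  have hS := fun (i : Fin M) (s : (Bk hc hφ hw k).S) => supp_ml (hχ i.succ) (he i) (hsupp i) s
  have hl : ∀ i (j : Fin (N i)), ∃ l : (Bk hc hφ hw k).S →L[ℂ] ℂ, ∀ s, l s =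
      lfun hc hφ hw k (e i) (e i '' tsupport (χ i.succ)) (h i j)
        (ml (Bk hc hφ hw k) (χ i.succ) (hχ i.succ) s) := by
    intro i j
    obtain ⟨b, hb⟩ := hb i j
    obtain ⟨l, hl⟩ := exists_lf (hc := hc) (hφ := hφ) (hw := hw) (k := k) (he i) (hS i 0).cpt
      (hS i 0).img_sub (hm i j) hb
    refine ⟨l.comp ((ml (Bk hc hφ hw k) (χ i.succ) (hχ i.succ)).mkContinuous 1
      (norm_ml_le hχ h1 _ _)), fun s => ?_⟩
    rw [ContinuousLinearMap.comp_apply, LinearMap.mkContinuous_apply, hl]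
  choose ℓ hℓ using hl
  refine ⟨ℓ, fun s hs => ?_⟩
  have hdg : ∀ a, (Bk hc hφ hw k).dg (n - 1) (ml (Bk hc hφ hw k) (χ a) (hχ a) s) =
      ml (Bk hc hφ hw k) (χ a) (hχ a) s := by
    intro a
    have := ml_dgc (B := Bk hc hφ hw k) (hχ a) (fun q => if q = n - 1 then 1 else 0) s
    exact this.symm.trans (congrArg _ hs)
  have e0 : (k / 2 - C) * ‖ml (Bk hc hφ hw k) (χ 0) (hχ 0) s‖ ^ 2 ≤
      ‖(Bk hc hφ hw k).D (ml (Bk hc hφ hw k) (χ 0) (hχ 0) s)‖ ^ 2 := by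
    have h2 : (k * (1 / 2) - C) * ‖ml (Bk hc hφ hw k) (χ 0) (hχ 0) s‖ ^ 2 ≤
        (Bk hc hφ hw k).qf (ml (Bk hc hφ hw k) (χ 0) (hχ 0) s) := by
      refine qf_ge_k hC hn (hdg 0) fun x => ?_
      have hx : P272.K.At (chartAt (Cm n) x) x := ⟨chart_mem_atlas _ _, mem_chart_source _ _⟩
      refine ⟨_, hx, fun hne => ?_⟩
      have h3 : χ 0 x ≠ 0 := by
        intro h4
        apply hne
        rw [ml_at (hχ 0) s hx (i := chartAt (Cm n) x) hx, h4]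
        simp
      have h5 := (h0 _ x hx h3).smul (show (0 : ℂ) ≤ ((1 / 2 : ℝ) : ℂ) from
        Complex.zero_le_real.2 (by norm_num))
      convert h5 using 1
      push_cast
      module
    have h3 := norm_D_eq (Bk hc hφ hw k) (ml (Bk hc hφ hw k) (χ 0) (hχ 0) s)
    have h4 := HB.grad_nonneg (B := Bk hc hφ hw k) (ml (Bk hc hφ hw k) (χ 0) (hχ 0) s)
    linarith
  have e1 : ∀ i : Fin M, (k / 2 - C) * ‖ml (Bk hc hφ hw k) (χ i.succ) (hχ i.succ) s‖ ^ 2 ≤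
      ‖(Bk hc hφ hw k).D (ml (Bk hc hφ hw k) (χ i.succ) (hχ i.succ) s)‖ ^ 2 +
        (∑ i, K i) * ∑ j, ‖ℓ i j s‖ ^ 2 := by
    intro i
    have h2 := chart_est hC hn (hS i s) (hdg i.succ) hp (h := h i) (K := K i)
      (hest i _ (hS i s).smooth (hS i s).tsupport_sub)
    have h3 : K i * ∑ j, ‖ℓ i j s‖ ^ 2 ≤ (∑ i, K i) * ∑ j, ‖ℓ i j s‖ ^ 2 := by
      refine mul_le_mul_of_nonneg_right ?_ (Finset.sum_nonneg fun j _ => sq_nonneg _)
      exact Finset.single_le_sum (fun i _ => hK i) (Finset.mem_univ i)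
    have h4 : (k / 2 - C) * ‖ml (Bk hc hφ hw k) (χ i.succ) (hχ i.succ) s‖ ^ 2 ≤
        (k - C) * ‖ml (Bk hc hφ hw k) (χ i.succ) (hχ i.succ) s‖ ^ 2 := by
      refine mul_le_mul_of_nonneg_right ?_ (sq_nonneg _)
      have : (0 : ℝ) ≤ k := Nat.cast_nonneg k
      linarith
    simp only [hℓ] at h3 ⊢
    linarith
  have h5 := hCI s
  rw [Fin.sum_univ_succ] at h5
  have h6 := sum_norm_ml (B := Bk hc hφ hw k) hχ h1 s
  rw [Fin.sum_univ_succ] at h6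
  have h7 := Finset.sum_le_sum fun i (_ : i ∈ Finset.univ) => e1 i
  rw [Finset.sum_add_distrib, ← Finset.mul_sum, ← Finset.mul_sum] at h7
  have h8 : (k / 2 - C - CI) * ‖s‖ ^ 2 = (k / 2 - C) * ‖s‖ ^ 2 - CI * ‖s‖ ^ 2 := by ring
  rw [h8]
  have h9 : (k / 2 - C) * ‖s‖ ^ 2 = (k / 2 - C) * ‖ml (Bk hc hφ hw k) (χ 0) (hχ 0) s‖ ^ 2 +
      (k / 2 - C) * ∑ i : Fin M, ‖ml (Bk hc hφ hw k) (χ i.succ) (hχ i.succ) s‖ ^ 2 := by
    rw [← mul_add, h6]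
  linarith

end Vale.Agent.P284.H747
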