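import Vale.Agent.P284.H747.App

/-!
# P284: the localisation functions
-/

open scoped Manifold ContDiff ComplexOrder Topology Matrix ComplexConjugate
open MeasureTheory Set Filter
open Vale.Agent.P272.K Vale.Agent.P299.H954 Vale.Agent.P299.IX
open Vale.Agent.P301.H862

set_option linter.unusedSectionVars false

noncomputable section

namespace Vale.Agent.P284.H747

/-- the angle -/
def ang (t : ℝ) : ℝ := Real.pi / 2 * Real.smoothTransition ((t - 6 / 10) / (3 / 10))

theorem contDiff_ang : ContDiff ℝ ∞ ang := by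
  unfold ang
  refine contDiff_const.mul (Real.smoothTransition.contDiff.comp ?_)
  exact (contDiff_id.sub contDiff_const).div_const _

theorem ang_lo {t : ℝ} (h : t ≤ 6 / 10) : ang t = 0 := by
  unfold ang
  rw [Real.smoothTransition.zero_of_nonpos (by
    apply div_nonpos_of_nonpos_of_nonneg <;> linarith), mul_zero]

theorem ang_hi {t : ℝ} (h : 9 / 10 ≤ t) : ang t = Real.pi / 2 := by
  unfold ang
  rw [Real.smoothTransition.one_of_one_le (by rw [le_div_iff₀ (by norm_num)]; linarith), mul_one]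

variable {n : ℕ} {X : Type} [TopologicalSpace X] [ChartedSpace (Cm n) X]

theorem SmR.comp {f : X → ℝ} (hf : SmoothFn (n := n) f) {g : ℝ → ℝ} (hg : ContDiff ℝ ∞ g) :
    SmR n (fun x => g (f x)) := fun e x hx => hg.contDiffAt.comp _ (hf e x hx)

/-- the localisation functions -/
theorem exists_fns [T2Space X] [CompactSpace X] [IsManifold 𝓘(ℂ, Cm n) ω X]
    (P : INT.Part n X) {f : X → ℝ} (hf : SmoothFn (n := n) f) :
    ∃ χ : Fin (P.N + 1) → X → ℝ, (∀ a, SmR n (χ a)) ∧ (∀ x, ∑ a, χ a x ^ 2 = 1) ∧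
      (∀ x, χ 0 x ≠ 0 → f x < 9 / 10) ∧
      (∀ i : Fin P.N, tsupport (χ i.succ) ⊆ tsupport (P.ρ i) ∩ {x | 6 / 10 ≤ f x}) := by
  have hfc : Continuous f := INT.SmoothFn.continuous hf
  set σ : X → ℝ := fun x => ∑ i, P.ρ i x ^ 2 with hσ
  have hσ0 : ∀ x, 0 < σ x := by
    intro x
    by_contra h
    have h1 : ∀ i, P.ρ i x = 0 := by
      intro i
      have h2 : P.ρ i x ^ 2 ≤ σ x :=
        Finset.single_le_sum (f := fun i => P.ρ i x ^ 2) (fun i _ => sq_nonneg _)
          (Finset.mem_univ i)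
      have h3 : P.ρ i x ^ 2 ≤ 0 := h2.trans (not_lt.1 h)
      exact pow_eq_zero_iff (two_ne_zero) |>.1 (le_antisymm h3 (sq_nonneg _))
    have h4 := P.sum x
    simp [h1] at h4
  have hσs : ∀ (e : Chart n X) x, P272.K.At e x → ContDiffAt ℝ ∞ (fun z => σ (e.symm z)) (e x) := by
    intro e x hx
    exact ContDiffAt.sum fun i _ => (P.smooth i e x hx).pow 2
  set ψ : Fin P.N → X → ℝ := fun i x => P.ρ i x / Real.sqrt (σ x) with hψ
  have hψs : ∀ i, SmR n (ψ i) := by
    intro i e x hx
    refine (P.smooth i e x hx).div ((hσs e x hx).sqrt ?_) ?_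
    · exact (hσ0 _).ne'
    · exact (Real.sqrt_pos.2 (hσ0 _)).ne'
  have hψ1 : ∀ x, ∑ i, ψ i x ^ 2 = 1 := by
    intro x
    simp only [hψ, div_pow, Real.sq_sqrt (hσ0 x).le]
    rw [← Finset.sum_div, div_self (hσ0 x).ne']
  refine ⟨Fin.cons (fun x => Real.cos (ang (f x))) fun i x => Real.sin (ang (f x)) * ψ i x,
    ?_, ?_, ?_, ?_⟩
  · intro a
    refine Fin.cases ?_ (fun i => ?_) a
    · exact SmR.comp hf (Real.contDiff_cos.comp contDiff_ang)
    · intro e x hx
      exact (SmR.comp hf (Real.contDiff_sin.comp contDiff_ang) e x hx).mul (hψs i e x hx)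
  · intro x
    rw [Fin.sum_univ_succ]
    simp only [Fin.cons_zero, Fin.cons_succ, mul_pow]
    rw [← Finset.mul_sum, hψ1, mul_one]
    exact Real.cos_sq_add_sin_sq _
  · intro x hx
    by_contra h
    apply hx
    simp only [Fin.cons_zero]
    rw [ang_hi (not_lt.1 h), Real.cos_pi_div_two]
  · intro i
    have h1 : IsClosed {x | 6 / 10 ≤ f x} := isClosed_le continuous_const hfc
    refine closure_minimal (fun x hx => ⟨?_, ?_⟩) ((isClosed_tsupport _).inter h1)
    · refine subset_tsupport _ fun h0 => hx ?_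
      simp only [Fin.cons_succ, hψ, h0, zero_div, mul_zero]
    · by_contra h
      apply hx
      simp only [Fin.cons_succ]
      rw [ang_lo (not_le.1 h).le, Real.sin_zero, zero_mul]

end Vale.Agent.P284.H747
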