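import Vale.Agent.P284.H747.Ker

/-!
# P284: IMS localisation and the zeroth order term in degree `n - 1`
-/

open scoped Manifold ContDiff ComplexOrder Topology Matrix ComplexConjugate
open MeasureTheory Set Filter
open Vale.Agent.P272.K Vale.Agent.P272.K.C2 Vale.Agent.P299.H954 Vale.Agent.P299.IX
open Vale.Agent.P301.H599 Vale.Agent.P299.H863 Vale.Agent.P301.H862
open Vale.Agent.P299.IX.Fock
open Vale.Agent.P272.K.INT (intX IsDensity intX_add intX_sub intX_const_mul intX_congr intX_nonneg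
  intX_mono intX_of_support intX_sum)

set_option linter.unusedSectionVars false

noncomputable section

namespace Vale.Agent.P284.H747

/-! ### abstract IMS -/

theorem ims_abs {S : Type*} [NormedAddCommGroup S] [InnerProductSpace ℂ S] {N : ℕ}
    (m : Fin N → S →ₗ[ℂ] S) (D : S →ₗ[ℂ] S)
    (hsym : ∀ a s t, inner ℂ (m a s) t = inner ℂ s (m a t)) (hsq : ∀ s, ∑ a, m a (m a s) = s)
    {C : ℝ} (h2 : ∀ s, ∑ a, ‖D (m a s) - m a (D s)‖ ^ 2 ≤ C * ‖s‖ ^ 2)
    (h3 : ∀ a s, D (m a (m a s)) - m a (D (m a s)) = m a (D (m a s) - m a (D s))) (s : S) :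
    ∑ a, ‖D (m a s)‖ ^ 2 ≤ ‖D s‖ ^ 2 + C * ‖s‖ ^ 2 := by
  have hz : ∑ i, m i (D (m i s) - m i (D s)) = 0 := by
    have e1 : ∑ i, (D (m i (m i s)) - m i (D (m i s))) = ∑ i, m i (D (m i s) - m i (D s)) :=
      Finset.sum_congr rfl fun i _ => h3 i s
    have e2 : ∑ i, D (m i (m i s)) = D s := by rw [← map_sum, hsq]
    have e4 : ∑ i, m i (D (m i s) - m i (D s)) = ∑ i, m i (D (m i s)) - D s := by
      simp only [map_sub, Finset.sum_sub_distrib, hsq]
    rw [Finset.sum_sub_distrib, e2, e4] at e1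
    rw [e4]
    have e5 : (2 : ℂ) • (∑ i, m i (D (m i s)) - D s) = 0 := by
      rw [two_smul]
      calc (∑ i, m i (D (m i s)) - D s) + (∑ i, m i (D (m i s)) - D s)
          = (∑ i, m i (D (m i s)) - D s) - (D s - ∑ i, m i (D (m i s))) := by abel
        _ = 0 := by rw [e1]; abel
    exact (smul_eq_zero.1 e5).resolve_left two_ne_zero
  have hcross : ∑ i, (inner ℂ (m i (D s)) (D (m i s) - m i (D s))).re = 0 := by
    rw [← Complex.re_sum, Finset.sum_congr rfl fun i _ => hsym i _ _, ← inner_sum, hz,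
      inner_zero_right]
    simp
  have hn : ∀ t, ∑ i, ‖m i t‖ ^ 2 = ‖t‖ ^ 2 := by
    intro t
    have h4 : ∀ u : S, (inner ℂ u u).re = ‖u‖ ^ 2 := fun u => inner_self_eq_norm_sq (𝕜 := ℂ) u
    have h5 : ∑ i, inner ℂ (m i t) (m i t) = inner ℂ t t := by
      rw [Finset.sum_congr rfl fun i _ => hsym i _ _, ← inner_sum, hsq]
    have h6 := congrArg Complex.re h5
    rw [Complex.re_sum] at h6
    simpa only [h4] using h6
  calc ∑ i, ‖D (m i s)‖ ^ 2
      = ∑ i, (‖m i (D s)‖ ^ 2 + 2 * (inner ℂ (m i (D s)) (D (m i s) - m i (D s))).re +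
          ‖D (m i s) - m i (D s)‖ ^ 2) := by
        refine Finset.sum_congr rfl fun i _ => ?_
        have := norm_add_sq (𝕜 := ℂ) (m i (D s)) (D (m i s) - m i (D s))
        rw [add_sub_cancel] at this
        exact this
    _ = ∑ i, ‖m i (D s)‖ ^ 2 + ∑ i, ‖D (m i s) - m i (D s)‖ ^ 2 := by
        rw [Finset.sum_add_distrib, Finset.sum_add_distrib, ← Finset.mul_sum, hcross]
        ring
    _ ≤ ‖D s‖ ^ 2 + C * ‖s‖ ^ 2 := by
        rw [hn]
        gcongr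
        exact h2 s

/-! ### the Clifford identity for the commutator -/

section cliff

variable {n : ℕ} {w : Cm n → Matrix (Fin n) (Fin n) ℂ} {f : Cm n → ℝ} {z : Cm n}

/-- the matrix `Σ a_l ε_l - Σ ā_b ε_b^†` -/
def cl (w : Cm n → Matrix (Fin n) (Fin n) ℂ) (z : Cm n) (a : Fin n → ℂ) : FM n :=
  ∑ l, a l • eps l - ∑ b, conj (a b) • epd b w z

/-- the square of the norm of a covector -/
def nn (w : Cm n → Matrix (Fin n) (Fin n) ℂ) (z : Cm n) (a : Fin n → ℂ) : ℂ :=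
  ∑ l, ∑ b, a l * conj (a b) * (w z)⁻¹ b l

theorem hw_cl (h : KAt w z) (a : Fin n → ℂ) (u : FI n → ℂ) :
    hw f w z (cl w z a *ᵥ u) (cl w z a *ᵥ u) = nn w z a * hw f w z u u := by
  set E : FM n := ∑ l, a l • eps l with hE
  set F : FM n := ∑ b, conj (a b) • epd b w z with hF
  have hE1 : ∀ u v, hw f w z (E *ᵥ u) v = hw f w z u (F *ᵥ v) := by
    intro u v
    simp only [hE, hF, Matrix.sum_mulVec, Matrix.smul_mulVec, hw_sum_left, hw_sum_right,
      hw_smul_left, hw_smul_right, hw_eps h, Complex.conj_conj]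
  have hF1 : ∀ u v, hw f w z (F *ᵥ u) v = hw f w z u (E *ᵥ v) := by
    intro u v
    rw [← hw_conj h, ← hE1, hw_conj h]
  have hEE : E * E = 0 := epsV_sq a
  have hFF : F * F = 0 := by
    have : F = iotV (fun l => ∑ b, conj (a b) * (w z)⁻¹ b l) := by
      rw [hF, iotV]
      simp only [epd, Finset.smul_sum, smul_smul]
      rw [Finset.sum_comm]
      refine Finset.sum_congr rfl fun l _ => ?_
      rw [Finset.sum_smul]
    rw [this]; exact iotV_sq _
  have hEF : E * F + F * E = nn w z a • (1 : FM n) := by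
    have h1 : E * F + F * E = ∑ l, ∑ b, (a l * conj (a b)) • (eps l * epd b w z +
        epd b w z * eps l) := by
      simp only [hE, hF, Finset.sum_mul, Finset.mul_sum, Matrix.smul_mul, Matrix.mul_smul,
        smul_smul, smul_add, Finset.sum_add_distrib]
      congr 1
      rw [Finset.sum_comm]
      refine Finset.sum_congr rfl fun l _ => Finset.sum_congr rfl fun b _ => ?_
      rw [mul_comm (a l)]
    rw [h1, nn, Finset.sum_smul]
    refine Finset.sum_congr rfl fun l _ => ?_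
    rw [Finset.sum_smul]
    refine Finset.sum_congr rfl fun b _ => ?_
    rw [car_epd, smul_smul]
  have hcl : cl w z a = E - F := rfl
  have h2 : (E - F) * (E - F) = -(nn w z a • (1 : FM n)) := by
    rw [← hEF, Matrix.sub_mul, Matrix.mul_sub, Matrix.mul_sub, hEE, hFF]
    abel
  have h3 : hw f w z (cl w z a *ᵥ u) (cl w z a *ᵥ u) =
      -hw f w z ((E - F) *ᵥ ((E - F) *ᵥ u)) u := by
    rw [hcl, Matrix.sub_mulVec E F ((E - F) *ᵥ u), hw_sub_left, hE1, hF1, neg_sub, ← hw_sub_right,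
      ← Matrix.sub_mulVec]
  rw [h3, Matrix.mulVec_mulVec, h2, Matrix.neg_mulVec, Matrix.smul_mulVec, Matrix.one_mulVec,
    hw_neg_left, neg_neg, hw_smul_left]

theorem cmM_eq {χ : Cm n → ℝ} (hχ : DifferentiableAt ℝ χ z) :
    cmM w f f (fun y => ((χ y : ℝ) : ℂ)) z = cl w z (fun l => dz l (fun y => ((χ y : ℝ) : ℂ)) z) := by
  unfold cmM cl
  congr 1
  · refine Finset.sum_congr rfl fun l _ => ?_
    rw [sub_self, mul_zero, sub_zero]
  · refine Finset.sum_congr rfl fun b _ => ?_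
    congr 1
    have h1 := C2.dz_conj b (f := fun y => ((χ y : ℝ) : ℂ)) (differentiableAt_ofReal hχ)
    simp only [Complex.conj_ofReal] at h1
    show _ = conj (dz b (fun y => ((χ y : ℝ) : ℂ)) z)
    rw [h1, Complex.conj_conj]

end cliff

/-! ### multiplication by real functions -/

section mult

variable {n : ℕ} {X : Type} [TopologicalSpace X] [ChartedSpace (Cm n) X] {ι : Type}
  {B : HB n X ι} {i j : ι} {e e' : Chart n X} {x : X} {χ : X → ℝ}

/-- multiplication by a real function -/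
def opR (B : HB n X ι) (χ : X → ℝ) (hχ : SmR n χ) : Opr B B where
  F := mulR χ
  dom _ := subset_rfl
  sec hg := hg.mulR hχ
  add _ _ _ _ _ _ _ := smul_add _ _ _
  smul c g _ i e x _ _ := smul_comm ((χ (e.symm (e x)) : ℝ) : ℂ) c (g i e (e x))

/-- multiplication by a real function -/
def ml (B : HB n X ι) (χ : X → ℝ) (hχ : SmR n χ) : B.S →ₗ[ℂ] B.S := (opR B χ hχ).op

theorem ml_at (hχ : SmR n χ) (s : B.S) (hx : P272.K.At e x) (hi : x ∈ B.L.U i) :
    (ml B χ hχ s).f i e (e x) = ((χ x : ℝ) : ℂ) • s.f i e (e x) := by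
  refine ((opR B χ hχ).op_at s hx hi).trans ?_
  show ((χ (e.symm (e x)) : ℝ) : ℂ) • s.f i e (e x) = _
  rw [hx.left_inv]

theorem ml_near (hχ : SmR n χ) (s : B.S) (hx : P272.K.At e x) (hi : x ∈ B.L.U i) :
    (ml B χ hχ s).f i e =ᶠ[𝓝 (e x)] fun z => ((χ (e.symm z) : ℝ) : ℂ) • s.f i e z :=
  (opR B χ hχ).op_near s hx hi

variable [IsManifold 𝓘(ℂ, Cm n) ω X]

theorem ml_dgc (hχ : SmR n χ) (q : ℕ → ℂ) (s : B.S) :
    ml B χ hχ (B.dgc q s) = B.dgc q (ml B χ hχ s) := by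
  apply HB.S.ext_f
  intro i e x hx hi
  rw [ml_at hχ _ hx hi, HB.dgc_at _ _ hx hi, HB.dgc_at _ _ hx hi, ml_at hχ _ hx hi,
    Matrix.mulVec_smul]

theorem comm_ml_at (hχ : SmR n χ) (s : B.S) (hx : P272.K.At e x) (hi : x ∈ B.L.U i) :
    (B.D (ml B χ hχ s) - ml B χ hχ (B.D s)).f i e (e x) =
      cl (B.w e) (e x) (fun l => dz l (fun y => ((χ (e.symm y) : ℝ) : ℂ)) (e x)) *ᵥ
        s.f i e (e x) := by
  have hc1 : ContDiffAt ℝ 1 (fun z => ((χ (e.symm z) : ℝ) : ℂ)) (e x) :=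
    (contDiffAt_ofReal (hχ e x hx)).of_le TrAt.one_le_inf
  have h1 := comm_DD (w := B.w e) (f := wt B.ρ i e) (f' := wt B.ρ i e) hc1
    (vc1 s.isSec hx hi)
  have h2 := HB.D_at (B := B) (ml B χ hχ s) hx hi
  have h3 := HB.D_at (B := B) s hx hi
  have h4 := ml_near hχ s hx hi
  rw [Dw_congr h4, De_congr h4] at h2
  rw [HB.S.sub_f]
  show (B.D (ml B χ hχ s)).f i e (e x) - (ml B χ hχ (B.D s)).f i e (e x) = _
  rw [h2, ml_at hχ _ hx hi, h3, ← cmM_eq ((hχ e x hx).differentiableAt (by simp)), ← h1,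
    hx.left_inv]

variable [T2Space X] [CompactSpace X]

theorem inner_ml (hχ : SmR n χ) (s t : B.S) :
    inner ℂ (ml B χ hχ s) t = inner ℂ s (ml B χ hχ t) := by
  show B.ipB t.f (ml B χ hχ s).f = B.ipB (ml B χ hχ t).f s.f
  refine Vale.Agent.P301.H862.intC_congr fun i e x hx hi => ?_
  show hw _ _ _ (t.f i e (e x)) ((ml B χ hχ s).f i e (e x)) =
    hw _ _ _ ((ml B χ hχ t).f i e (e x)) (s.f i e (e x))
  rw [ml_at hχ _ hx hi, ml_at hχ _ hx hi, hw_smul_left, hw_smul_right, Complex.conj_ofReal]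

variable {N : ℕ} {χs : Fin N → X → ℝ}

theorem sum_ml_sq (hχ : ∀ a, SmR n (χs a)) (h1 : ∀ x, ∑ a, χs a x ^ 2 = 1) (s : B.S) :
    ∑ a, ml B (χs a) (hχ a) (ml B (χs a) (hχ a) s) = s := by
  apply HB.S.ext_f
  intro i e x hx hi
  rw [HB.S.sum_f]
  simp only [Finset.sum_apply]
  rw [Finset.sum_congr rfl fun a _ => by
    rw [ml_at (hχ a) _ hx hi, ml_at (hχ a) _ hx hi, smul_smul], ← Finset.sum_smul]
  have : ∑ a, ((χs a x : ℝ) : ℂ) * ((χs a x : ℝ) : ℂ) = 1 := by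
    rw [← Complex.ofReal_one, ← h1 x, Complex.ofReal_sum]
    refine Finset.sum_congr rfl fun i _ => ?_
    push_cast; ring
  rw [this, one_smul]

theorem sum_norm_ml (hχ : ∀ a, SmR n (χs a)) (h1 : ∀ x, ∑ a, χs a x ^ 2 = 1) (t : B.S) :
    ∑ a, ‖ml B (χs a) (hχ a) t‖ ^ 2 = ‖t‖ ^ 2 := by
  have h4 : ∀ u : B.S, (inner ℂ u u).re = ‖u‖ ^ 2 := fun u => inner_self_eq_norm_sq (𝕜 := ℂ) u
  have h5 : ∑ i, inner ℂ (ml B (χs i) (hχ i) t) (ml B (χs i) (hχ i) t) = inner ℂ t t := by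
    rw [Finset.sum_congr rfl fun i _ => inner_ml (hχ i) _ _, ← inner_sum, sum_ml_sq hχ h1]
  have h6 := congrArg Complex.re h5
  rw [Complex.re_sum] at h6
  simpa only [h4] using h6

/-- it is enough to compare in one chart at each point -/
theorem norm_le_of_chart {s t : B.S} {C : ℝ} (h : ∀ x, ∃ i e, P272.K.At e x ∧ x ∈ B.L.U i ∧
    (hw (wt B.ρ i e) (B.w e) (e x) (t.f i e (e x)) (t.f i e (e x))).re ≤
      C * (hw (wt B.ρ i e) (B.w e) (e x) (s.f i e (e x)) (s.f i e (e x))).re) :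
    ‖t‖ ^ 2 ≤ C * ‖s‖ ^ 2 := by
  rw [HB.norm_sq_eq', HB.norm_sq_eq', ← intX_const_mul]
  have hDt := (B.dens t.isSec t.isSec)
  have hDs := (B.dens s.isSec s.isSec)
  refine intX_mono hDt.isDensity_re (hDs.isDensity_re.const_mul _) fun e x hx => ?_
  obtain ⟨i, e', hx', hi, h6⟩ := h x
  refine HB.density_le_of_chart hDt.isDensity_re (hDs.isDensity_re.const_mul _) hx' ?_ hx
  rw [reD_eq hDt hx' hi]
  show _ ≤ _ * reD B.L _ _ _
  rw [reD_eq hDs hx' hi]
  exact h6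

end mult

/-! ### the constant of IMS -/

section const

variable {n : ℕ} {X : Type} [TopologicalSpace X] [ChartedSpace (Cm n) X]
  [IsManifold 𝓘(ℂ, Cm n) ω X] [T2Space X] [CompactSpace X]
  {w : Chart n X → Cm n → Matrix (Fin n) (Fin n) ℂ}

theorem nn_cont (hw : IsKahler w) {χ : X → ℝ} (hχ : SmR n χ) {e : Chart n X} {x : X}
    (hx : P272.K.At e x) :
    ContinuousAt (fun z => nn (w e) z fun l => dz l (fun y => ((χ (e.symm y) : ℝ) : ℂ)) z)
      (e x) := by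
  have h1 : ContDiffAt ℝ ∞ (fun y => ((χ (e.symm y) : ℝ) : ℂ)) (e x) :=
    contDiffAt_ofReal (hχ e x hx)
  have h2 : ∀ l, ContinuousAt (dz l fun y => ((χ (e.symm y) : ℝ) : ℂ)) (e x) := fun l =>
    (contDiffAt_dz (m := ∞) l h1 inf_add_one).continuousAt
  unfold nn
  refine tendsto_finsetSum _ fun l _ => tendsto_finsetSum _ fun b _ => ?_
  exact ((h2 l).mul (Complex.continuous_conj.continuousAt.comp (h2 b))).mul
    ((kat hw hx).inv b l).continuousAt

theorem exists_nn (hw : IsKahler w) {N : ℕ} {χs : Fin N → X → ℝ} (hχ : ∀ a, SmR n (χs a)) :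
    ∃ C : ℝ, 0 ≤ C ∧ ∀ x, ∃ e : Chart n X, P272.K.At e x ∧
      ∀ a, (nn (w e) (e x) fun l => dz l (fun y => ((χs a (e.symm y) : ℝ) : ℂ)) (e x)).re ≤ C := by
  have key : ∃ C : ℝ, 0 ≤ C ∧ ∀ x ∈ (univ : Set X), ∃ e : Chart n X, P272.K.At e x ∧
      ∀ a, (nn (w e) (e x) fun l => dz l (fun y => ((χs a (e.symm y) : ℝ) : ℂ)) (e x)).re ≤ C := by
    refine isCompact_univ.induction_on (p := fun U => ∃ C : ℝ, 0 ≤ C ∧ ∀ x ∈ U,
      ∃ e : Chart n X, P272.K.At e x ∧ ∀ a, (nn (w e) (e x) fun l =>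
        dz l (fun y => ((χs a (e.symm y) : ℝ) : ℂ)) (e x)).re ≤ C) ?_ ?_ ?_ ?_
    · exact ⟨0, le_rfl, fun x hx => hx.elim⟩
    · rintro s t hst ⟨C, hC, h⟩
      exact ⟨C, hC, fun x hx => h x (hst hx)⟩
    · rintro s t ⟨C, hC, h⟩ ⟨C', hC', h'⟩
      refine ⟨max C C', hC.trans (le_max_left _ _), fun x hx => ?_⟩
      rcases hx with hx | hx
      · obtain ⟨e, he, h1⟩ := h x hx
        exact ⟨e, he, fun a => (h1 a).trans (le_max_left _ _)⟩
      · obtain ⟨e, he, h1⟩ := h' x hx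
        exact ⟨e, he, fun a => (h1 a).trans (le_max_right _ _)⟩
    · intro x _
      set e := chartAt (Cm n) x
      have hx : P272.K.At e x := ⟨chart_mem_atlas _ _, mem_chart_source _ _⟩
      set g : Fin N → Cm n → ℝ := fun a z => (nn (w e) z fun l =>
        dz l (fun y => ((χs a (e.symm y) : ℝ) : ℂ)) z).re with hg
      have h1 : ∀ a, ContinuousAt (g a) (e x) := fun a =>
        Complex.continuous_re.continuousAt.comp (nn_cont hw (hχ a) hx)
      set C : ℝ := ∑ a, (|g a (e x)| + 1) with hC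
      have hC1 : ∀ a, |g a (e x)| + 1 ≤ C := fun a =>
        Finset.single_le_sum (f := fun a => |g a (e x)| + 1) (fun a _ => by positivity)
          (Finset.mem_univ a)
      have h2 : ∀ a, ∀ᶠ z in 𝓝 (e x), g a z < |g a (e x)| + 1 := fun a =>
        (h1 a).eventually_lt_const (lt_of_le_of_lt (le_abs_self _) (lt_add_one _))
      have h3 : ∀ᶠ z in 𝓝 (e x), ∀ a, g a z < |g a (e x)| + 1 := Filter.eventually_all.2 h2
      have h4 : ∀ᶠ y in 𝓝 x, ∀ a, g a (e y) < |g a (e x)| + 1 :=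
        (e.continuousAt hx.2).eventually h3
      have h5 : ∀ᶠ y in 𝓝 x, y ∈ e.source := e.open_source.mem_nhds hx.2
      refine ⟨{y | (∀ a, g a (e y) < |g a (e x)| + 1) ∧ y ∈ e.source},
        mem_nhdsWithin_of_mem_nhds (h4.and h5), C, Finset.sum_nonneg fun a _ => by positivity, ?_⟩
      rintro y ⟨hy1, hy2⟩
      exact ⟨e, ⟨chart_mem_atlas _ _, hy2⟩, fun a => (hy1 a).le.trans (hC1 a)⟩
  obtain ⟨C, hC, h⟩ := key
  exact ⟨C, hC, fun x => h x (mem_univ x)⟩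

variable {c : Chart n X → Chart n X → X → ℂ} {φ : Chart n X → Cm n → ℝ}

/-- **IMS** with a constant independent of `k` -/
theorem exists_ims (hc : IsCoc c) (hφ : IsWt c φ) (hw : IsKahler w) {N : ℕ}
    {χs : Fin N → X → ℝ} (hχ : ∀ a, SmR n (χs a)) (h1 : ∀ x, ∑ a, χs a x ^ 2 = 1) :
    ∃ C : ℝ, 0 ≤ C ∧ ∀ (k : ℕ) (s : (Bk hc hφ hw k).S),
      ∑ a, ‖(Bk hc hφ hw k).D (ml (Bk hc hφ hw k) (χs a) (hχ a) s)‖ ^ 2 ≤
        ‖(Bk hc hφ hw k).D s‖ ^ 2 + C * ‖s‖ ^ 2 := by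
  obtain ⟨C, hC, h⟩ := exists_nn hw hχ
  refine ⟨N * C, by positivity, fun k s => ?_⟩
  refine ims_abs (fun a => ml (Bk hc hφ hw k) (χs a) (hχ a)) (Bk hc hφ hw k).D
    (fun a s t => inner_ml (hχ a) s t) (fun s => sum_ml_sq hχ h1 s) (C := N * C) ?_ ?_ s
  · intro s
    have h2 : ∀ a, ‖(Bk hc hφ hw k).D (ml (Bk hc hφ hw k) (χs a) (hχ a) s) -
        ml (Bk hc hφ hw k) (χs a) (hχ a) ((Bk hc hφ hw k).D s)‖ ^ 2 ≤ C * ‖s‖ ^ 2 := by
      intro a
      refine norm_le_of_chart fun x => ?_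
      obtain ⟨e, hx, he⟩ := h x
      refine ⟨e, e, hx, hx, ?_⟩
      rw [comm_ml_at (hχ a) s hx (i := e) hx, hw_cl (kat (Bk hc hφ hw k).kahler hx)]
      have h3 : (0 : ℝ) ≤ (P301.H862.hw (wt (Bk hc hφ hw k).ρ e e) ((Bk hc hφ hw k).w e) (e x)
          (s.f e e (e x)) (s.f e e (e x))).re := hw_nonneg (kat (Bk hc hφ hw k).kahler hx) _
      have h4 : (P301.H862.hw (wt (Bk hc hφ hw k).ρ e e) ((Bk hc hφ hw k).w e) (e x)
          (s.f e e (e x)) (s.f e e (e x))).im = 0 := by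
        have := congrArg Complex.im (hw_conj (f := wt (Bk hc hφ hw k).ρ e e)
          (kat (Bk hc hφ hw k).kahler hx) (s.f e e (e x)) (s.f e e (e x)))
        rw [Complex.conj_im] at this
        linarith
      rw [Complex.mul_re, h4, mul_zero, sub_zero]
      exact mul_le_mul_of_nonneg_right (he a) h3
    calc _ ≤ ∑ _a : Fin N, C * ‖s‖ ^ 2 := Finset.sum_le_sum fun a _ => h2 a
      _ = N * C * ‖s‖ ^ 2 := by simp [mul_assoc]
  · intro a s
    apply HB.S.ext_f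
    intro i e x hx hi
    rw [comm_ml_at (hχ a) _ hx hi, ml_at (hχ a) _ hx hi, ml_at (hχ a) _ hx hi,
      comm_ml_at (hχ a) _ hx hi, Matrix.mulVec_smul]

end const

end Vale.Agent.P284.H747
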