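import Vale.Agent.P284.H747.Bun

/-!
# P284: sections of top degree in the kernel are holomorphic sections of `kL`
-/

open scoped Manifold ContDiff ComplexOrder Topology Matrix ComplexConjugate
open MeasureTheory Set Filter
open Vale.Agent.P272.K Vale.Agent.P272.K.C2 Vale.Agent.P299.H954 Vale.Agent.P299.IX
open Vale.Agent.P301.H599 Vale.Agent.P299.H863 Vale.Agent.P301.H862
open Vale.Agent.P299.IX.Fock
open Vale.Agent.P272.K.INT (intX IsDensity intX_add intX_sub intX_const_mul intX_congr intX_nonneg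
  intX_mono intX_of_support intX_sum)

set_option linter.unusedSectionVars false

noncomputable section

namespace Vale.Agent.P284.H747

section fock

variable {n : ℕ}

theorem top_eq {a : FI n → ℂ} (ha : ∀ I : FI n, I ≠ Finset.univ → a I = 0) :
    a = a Finset.univ • ev Finset.univ := by
  ext I
  by_cases h : I = Finset.univ
  · subst h; simp [ev]
  · rw [ha I h]; simp [ev, h]

theorem eps_top {a : FI n → ℂ} (ha : ∀ I : FI n, I ≠ Finset.univ → a I = 0) (l : Fin n) :
    eps l *ᵥ a = 0 := by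
  rw [top_eq ha, Matrix.mulVec_smul, eps_ev_of_mem (Finset.mem_univ l), smul_zero]

end fock

section ker

variable {n : ℕ} {X : Type} [TopologicalSpace X] [ChartedSpace (Cm n) X]
  [IsManifold 𝓘(ℂ, Cm n) ω X] {ι : Type} {B : HB n X ι} {i j : ι} {e e' : Chart n X} {x : X}

theorem top_of_dg {s : B.S} (hs : B.dgc (fun q => if q = n then 1 else 0) s = s)
    (hx : P272.K.At e x) (hi : x ∈ B.L.U i) (I : FI n) (hI : I ≠ Finset.univ) :
    s.f i e (e x) I = 0 := by
  have h1 := HB.dgc_at (B := B) (fun q => if q = n then 1 else 0) s hx hi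
  rw [hs] at h1
  rw [h1, dgl_mulVec, if_neg, zero_mul]
  intro h
  exact hI ((Finset.card_eq_iff_eq_univ I).1 (by simpa using h))

theorem DVb_tr {s : B.S} (hx : P272.K.At e x) (hx' : P272.K.At e' x) (hi : x ∈ B.L.U i)
    (hj : x ∈ B.L.U j) (h : ∀ b, DVb b (s.f j e') (e' x) = 0) (b : Fin n) :
    DVb b (s.f i e) (e x) = 0 := by
  have h1 := (trAt hx hx' hi hj).cov_DVb (a := s.f i e) (a' := s.f j e')
    (by rw [cc_eq hx]; exact vc1 s.isSec hx' hj) (s.isSec.ev hx hx' hi hj) b
  rw [cc_eq hx] at h1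
  rw [h1]
  simp [h]

variable [T2Space X] [CompactSpace X]

theorem DVb_zero_of_grad {s : B.S} (h : B.grad s = 0) (hx : P272.K.At e x) (hi : x ∈ B.L.U i)
    (b : Fin n) : DVb b (s.f i e) (e x) = 0 := by
  by_contra hne
  have hD := s.isSec.isDens_gradX B.metric B.kahler s.isSec
  have h2 : 0 < intX (reD B.L (gradX B.ρ B.w s.f s.f)) := by
    refine intX_pos_of_pos hD.isDensity_re (fun e x hx => ?_) (x := x) fun e' hx' => ?_
    · rw [reD_eq hD hx (mem_ix B.L x)]
      exact HB.grad_pt_nonneg s hx (mem_ix B.L x)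
    · rw [reD_eq hD hx' (mem_ix B.L x)]
      obtain ⟨m, hm, hmb⟩ := B.exists_grad_lower hx'.1 (isCompact_singleton (x := e' x))
        (Set.singleton_subset_iff.2 (mem_dom hx' (mem_ix B.L x)))
      refine lt_of_lt_of_le ?_ (hmb _ rfl fun b => DVb b (s.f (ix B.L x) e') (e' x))
      refine mul_pos hm ?_
      by_contra hcon
      have h0 : ∑ b, ∑ I, ‖DVb b (s.f (ix B.L x) e') (e' x) I‖ ^ 2 = 0 :=
        le_antisymm (not_lt.1 hcon) (Finset.sum_nonneg fun b _ => Finset.sum_nonneg fun I _ =>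
          by positivity)
      refine hne (DVb_tr hx hx' hi (mem_ix B.L x) (fun b' => ?_) b)
      ext I
      have h1 := (Finset.sum_eq_zero_iff_of_nonneg (fun b _ => Finset.sum_nonneg fun I _ =>
          (by positivity : (0 : ℝ) ≤ ‖DVb b (s.f (ix B.L x) e') (e' x) I‖ ^ 2))).1 h0 b'
          (Finset.mem_univ _)
      have h3 := (Finset.sum_eq_zero_iff_of_nonneg (fun I _ =>
          (by positivity : (0 : ℝ) ≤ ‖DVb b' (s.f (ix B.L x) e') (e' x) I‖ ^ 2))).1 h1 I
          (Finset.mem_univ _)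
      simpa using h3
  rw [← Vale.Agent.P301.H862.intC_re] at h2
  exact h2.ne' h

/-- the zeroth order term vanishes in top degree -/
theorem qf_top {s : B.S} (hs : B.dgc (fun q => if q = n then 1 else 0) s = s) : B.qf s = 0 := by
  have h1 : B.ipB (QX B.ρ B.w s.f) s.f = B.ipB 0 s.f := by
    refine HB.ipB_congr (fun i e x hx hi => ?_) fun _ _ _ _ _ => rfl
    show Qw _ _ _ _ = 0
    unfold Qw
    refine Finset.sum_eq_zero fun l _ => Finset.sum_eq_zero fun b _ => ?_
    rw [eps_top (top_of_dg hs hx hi) l, Matrix.mulVec_zero, smul_zero]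
  have h2 : B.ipB 0 s.f = 0 := by
    have := HB.ipB_smul_left (B := B) (g := s.f) (h := s.f) s.isSec s.isSec 0
    rw [zero_smul, zero_mul] at this
    exact this
  rw [HB.qf, h1, h2, Complex.zero_re]

theorem grad_top {s : B.S} (hs : B.dgc (fun q => if q = n then 1 else 0) s = s) :
    ‖B.D s‖ ^ 2 = B.grad s := by
  rw [HB.norm_D_sq, HB.bkn, qf_top hs, zero_add]

end ker

section hol

variable {n : ℕ} {X : Type} [TopologicalSpace X] [ChartedSpace (Cm n) X]
  [IsManifold 𝓘(ℂ, Cm n) ω X] [T2Space X] [CompactSpace X]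
  {c : Chart n X → Chart n X → X → ℂ} {φ : Chart n X → Cm n → ℝ}
  {w : Chart n X → Cm n → Matrix (Fin n) (Fin n) ℂ}
  {hc : IsCoc c} {hφ : IsWt c φ} {hw : IsKahler w} {k : ℕ}

/-- the top component -/
def topS (s : (Bk hc hφ hw k).S) : Chart n X → Cm n → ℂ := fun e z => s.f e e z Finset.univ

theorem topS_change {s : (Bk hc hφ hw k).S}
    (hs : (Bk hc hφ hw k).dgc (fun q => if q = n then 1 else 0) s = s) {e e' : Chart n X} {x : X}
    (hx : P272.K.At e x) (hx' : P272.K.At e' x) :
    c e e' x ^ k * topS s e (e x) = topS s e' (e' x) := by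
  have h1 := s.isSec.change e e' e e' x hx hx' hx hx'
  have h2 := top_eq (top_of_dg hs hx' (i := e') hx')
  rw [h2] at h1
  have h3 := congrFun h1 Finset.univ
  have hJ : (jacM e e' x).det ≠ 0 := jacM_det_ne_zero hx hx'
  have hcx := hc.ne e e' x hx hx'
  have h4 : (lb hc k).g e e' x = (c e e' x ^ k * (jacM e e' x).det)⁻¹ := rfl
  have h5 : s.f e e (e x) Finset.univ = (c e e' x ^ k * (jacM e e' x).det)⁻¹ *
      ((jacM e e' x).det * s.f e' e' (e' x) Finset.univ) := by
    rw [h3, Matrix.smul_mulVec, Matrix.mulVec_smul, lam_ev_univ, Matrix.det_transpose]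
    show (lb hc k).g e e' x * (s.f e' e' (e' x) Finset.univ * ((jacM e e' x).det *
      (ev Finset.univ : FI n → ℂ) Finset.univ)) = _
    rw [h4, show (ev Finset.univ : FI n → ℂ) Finset.univ = 1 by simp [ev]]
    ring
  show c e e' x ^ k * s.f e e (e x) Finset.univ = s.f e' e' (e' x) Finset.univ
  rw [h5]
  field_simp

theorem isHol_topS {s : (Bk hc hφ hw k).S}
    (hs : (Bk hc hφ hw k).dgc (fun q => if q = n then 1 else 0) s = s)
    (hD : (Bk hc hφ hw k).D s = 0) : IsHol c k (topS s) where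
  holo e x hx := by
    have hg : (Bk hc hφ hw k).grad s = 0 := by
      rw [← grad_top hs, hD, norm_zero]; norm_num
    refine analyticAt_of_dzb ?_
    filter_upwards [near_at hx hx] with z hz
    have h1 := vc1 s.isSec hz.1 (i := e) hz.1 Finset.univ
    rw [hz.2.2] at h1
    refine ⟨h1.differentiableAt one_ne_zero_inf, fun l => ?_⟩
    have h2 := DVb_zero_of_grad hg hz.1 (i := e) hz.1 l
    rw [hz.2.2] at h2
    exact congrFun h2 Finset.univ
  change e e' x hx hx' := topS_change hs hx hx'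

theorem eq_zero_of_topS {s : (Bk hc hφ hw k).S}
    (hs : (Bk hc hφ hw k).dgc (fun q => if q = n then 1 else 0) s = s)
    (h : ∀ e x, P272.K.At e x → topS s e (e x) = 0) : s = 0 := by
  apply HB.S.ext_f
  intro i e x hx hi
  have h1 : s.f e e (e x) = 0 := by
    rw [top_eq (top_of_dg hs hx (i := e) hx)]
    rw [show s.f e e (e x) Finset.univ = 0 from h e x hx, zero_smul]
  rw [s.isSec.change i e e e x hx hx hi hx, h1, Matrix.mulVec_zero]
  rfl

theorem li_topS {N : ℕ} {s : Fin N → (Bk hc hφ hw k).S}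
    (hs : ∀ a, (Bk hc hφ hw k).dgc (fun q => if q = n then 1 else 0) (s a) = s a)
    (hl : LinearIndependent ℂ s) : LI fun a => topS (s a) := by
  intro b hb
  have h1 : ∑ a, b a • s a = 0 := by
    refine eq_zero_of_topS (by rw [map_sum]; simp only [map_smul, hs]) fun e x hx => ?_
    show (∑ a, b a • s a).f e e (e x) Finset.univ = 0
    rw [HB.S.sum_f]
    simp only [Finset.sum_apply]
    rw [← hb e x hx]
    rfl
  have h2 := Fintype.linearIndependent_iff.1 hl b h1
  funext a
  exact h2 a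

end hol

end Vale.Agent.P284.H747
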