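import Vale.Agent.P299.H954.IX.G.Glob
import Vale.Agent.P299.H598.IX.OpL
import Vale.Agent.P299.H863.IdxFin
import Vale.Agent.P272.K.INT.Gronwall

/-!
# P284: nef and big implies maximal Kodaira dimension (MP): interface statements

`X` is a compact connected Kähler manifold, `L` a holomorphic line bundle given by a cocycle `c`,
`φ` the weights of a Hermitian metric of `L`.  All `Spec_*` are the statements of the packages.
-/

open scoped Manifold ContDiff ComplexOrder Topology Matrix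
open MeasureTheory Set Filter
open Vale.Agent.P272.K Vale.Agent.P272.K.INT Vale.Agent.P299.IX

noncomputable section

namespace Vale.Agent.P284.H747

section defs

variable {n : ℕ} {X : Type*} [TopologicalSpace X] [ChartedSpace (Cm n) X]

/-- `c` is the cocycle of a holomorphic line bundle, in the charts of `X` -/
structure IsCoc (c : Chart n X → Chart n X → X → ℂ) : Prop where
  an : ∀ e e' x, At e x → At e' x → ContDiffAt ℂ ω (fun z => c e e' (e.symm z)) (e x)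
  ne : ∀ e e' x, At e x → At e' x → c e e' x ≠ 0
  self : ∀ e x, At e x → c e e x = 1
  mul : ∀ e e' e'' x, At e x → At e' x → At e'' x → c e e' x * c e' e'' x = c e e'' x

/-- `φ` is a smooth Hermitian metric, given by its weights, on the line bundle with cocycle `c`:
the square of the norm of the section `s` is `‖s e‖² exp (- φ e)` -/
structure IsWt (c : Chart n X → Chart n X → X → ℂ) (φ : Chart n X → Cm n → ℝ) : Prop where
  smooth : ∀ e x, At e x → ContDiffAt ℝ ∞ (φ e) (e x)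
  change : ∀ e e' x, At e x → At e' x →
    φ e' (e' x) = φ e (e x) + Real.log (‖c e e' x‖ ^ 2)

/-- `s` is a holomorphic section of the `k`-th power of the line bundle with cocycle `c` -/
structure IsHol (c : Chart n X → Chart n X → X → ℂ) (k : ℕ) (s : Chart n X → Cm n → ℂ) :
    Prop where
  holo : ∀ e x, At e x → AnalyticAt ℂ (s e) (e x)
  change : ∀ e e' x, At e x → At e' x → c e e' x ^ k * s e (e x) = s e' (e' x)

/-- the sections `s i` are linearly independent -/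
def LI {N : ℕ} (s : Fin N → Chart n X → Cm n → ℂ) : Prop :=
  ∀ b : Fin N → ℂ, (∀ e x, At e x → ∑ i, b i * s i e (e x) = 0) → b = 0

/-- the cocycle of the canonical bundle -/
def canC : Chart n X → Chart n X → X → ℂ := fun e e' x => ((jacM e e' x).det)⁻¹

end defs

/-! ### statements on `ℂⁿ` -/

/-- **FL** (flat estimate with conditions) -/
def Spec_FL : Prop := ∀ n : ℕ, 1 ≤ n → ∀ K₀ : ℝ, 0 < K₀ → ∃ C : ℝ, 0 < C ∧
  ∀ (P U : Set (Cm n)) (φ : Cm n → ℝ), IsCompact P → 0 < volume P → IsOpen U → P ⊆ U →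
    ContDiffOn ℝ ∞ φ U →
    (∀ z ∈ U, (2 • (1 : Matrix (Fin n) (Fin n) ℂ) - cHess φ z).PosSemidef ∧
      (2 • (1 : Matrix (Fin n) (Fin n) ℂ) + cHess φ z).PosSemidef) →
    ∃ k₀ : ℕ, ∀ k : ℕ, k₀ ≤ k → ∃ (N : ℕ) (h : Fin N → Cm n → ℂ) (K : ℝ),
      (N : ℝ) ≤ C * (k : ℝ) ^ n * (volume P).toReal ∧ 0 ≤ K ∧
      (∀ j, Measurable (h j)) ∧ (∀ j, ∃ M : ℝ, ∀ z, ‖h j z‖ ≤ M) ∧
      ∀ g : Cm n → ℂ, ContDiff ℝ ∞ g → tsupport g ⊆ P →
        K₀ * k * (∫ z, ‖g z‖ ^ 2 * Real.exp (-(k * φ z))) ≤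
          (∫ z, (∑ j, ‖dzb j g z‖ ^ 2) * Real.exp (-(k * φ z))) +
            K * ∑ j, ‖∫ z, g z * h j z‖ ^ 2

/-- **VL** (the estimate for form valued functions and a variable metric, in a chart) -/
def Spec_VL : Prop := ∀ n : ℕ, 1 ≤ n → ∀ K₀ : ℝ, 0 < K₀ → ∃ C : ℝ, 0 < C ∧
  ∀ (P U : Set (Cm n)) (φ : Cm n → ℝ) (w : Cm n → Matrix (Fin n) (Fin n) ℂ),
    IsCompact P → IsOpen U → P ⊆ U → ContDiffOn ℝ ∞ φ U →
    (∀ i j, ContDiffOn ℝ ∞ (fun z => w z i j) U) → (∀ z ∈ U, (w z).PosDef) →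
    (∀ z ∈ U, (w z - cHess φ z).PosSemidef ∧ (w z + cHess φ z).PosSemidef) →
    IntegrableOn (fun z => (w z).det.re) U →
    ∃ k₀ : ℕ, ∀ k : ℕ, k₀ ≤ k → ∃ (N : ℕ) (h : Fin N → Cm n → FI n → ℂ) (K : ℝ),
      (N : ℝ) ≤ C * (k : ℝ) ^ n * (∫ z in U, (w z).det.re) ∧ 0 ≤ K ∧
      (∀ j, Measurable (h j)) ∧ (∀ j, ∃ M : ℝ, ∀ z i, ‖h j z i‖ ≤ M) ∧
      ∀ v : Cm n → FI n → ℂ, ContDiff ℝ ∞ v → tsupport v ⊆ P →
        K₀ * k * (∫ z, (G.hp (fun y => (Real.exp (-(k * φ y)) : ℂ) * (w y).det) w z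
            (v z) (v z)).re) ≤
          (∫ z, (G.gradb (fun y => (Real.exp (-(k * φ y)) : ℂ) * (w y).det) w v v z).re) +
            K * ∑ j, ‖∫ z, ∑ i, v z i * h j z i‖ ^ 2

/-- **LW** (many disjoint peak functions of small energy, in a chart) -/
def Spec_LW : Prop := ∀ n : ℕ, 1 ≤ n → ∃ c : ℝ, 0 < c ∧
  ∀ (Q U : Set (Cm n)) (φ : Cm n → ℝ) (w : Cm n → Matrix (Fin n) (Fin n) ℂ),
    IsOpen Q → Bornology.IsBounded Q → IsOpen U → closure Q ⊆ U → ContDiffOn ℝ ∞ φ U →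
    (∀ i j, ContDiffOn ℝ ∞ (fun z => w z i j) U) → (∀ z ∈ U, (w z).PosDef) →
    (∀ z ∈ Q, (w z - cHess φ z).PosSemidef ∧ (2 • cHess φ z - w z).PosSemidef) →
    ∃ k₀ : ℕ, ∀ k : ℕ, k₀ ≤ k → ∃ (N : ℕ) (u : Fin N → Cm n → ℂ),
      c * (k : ℝ) ^ n * (∫ z in Q, (w z).det.re) ≤ N ∧
      (∀ j, ContDiff ℝ ∞ (u j) ∧ HasCompactSupport (u j) ∧ tsupport (u j) ⊆ Q ∧
        ∃ z, u j z ≠ 0) ∧
      (∀ i j, i ≠ j → Disjoint (tsupport (u i)) (tsupport (u j))) ∧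
      ∀ j, (∫ z, (∑ l, ∑ b, (w z)⁻¹ b l * dzb b (u j) z *
            (starRingEnd ℂ) (dzb l (u j) z)).re * ((w z).det.re * Real.exp (-(k * φ z)))) ≤
          k / 100 * ∫ z, ‖u j z‖ ^ 2 * ((w z).det.re * Real.exp (-(k * φ z)))

/-! ### statements on `X` -/

/-- **SG** (Siegel): `≥ a kⁿ` sections of `kL` for arbitrarily large `k` give `n + 1` sections of
some `mL` whose quotients are local coordinates at some point -/
def Spec_SG : Prop := ∀ (n : ℕ), 1 ≤ n → ∀ (X : Type) [TopologicalSpace X] [T2Space X]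
    [CompactSpace X] [ConnectedSpace X] [ChartedSpace (Cm n) X] [IsManifold 𝓘(ℂ, Cm n) ω X]
    (c : Chart n X → Chart n X → X → ℂ), IsCoc c → ∀ a : ℝ, 0 < a →
    (∀ k₀ : ℕ, ∃ k : ℕ, k₀ ≤ k ∧ ∃ (N : ℕ) (s : Fin N → Chart n X → Cm n → ℂ),
      a * (k : ℝ) ^ n ≤ N ∧ (∀ i, IsHol c k (s i)) ∧ LI s) →
    ∃ m : ℕ, 1 ≤ m ∧ ∃ s : Fin (n + 1) → Chart n X → Cm n → ℂ, (∀ i, IsHol c m (s i)) ∧
      ∃ e x, At e x ∧ s 0 e (e x) ≠ 0 ∧
        (Matrix.of fun i j : Fin n => dz j (fun z => s i.succ e z / s 0 e z) (e x)).det ≠ 0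

/-- **VOL**: from nef and big to good metrics -/
def Spec_VOL : Prop := ∀ (n : ℕ), 1 ≤ n → ∀ (X : Type) [TopologicalSpace X] [T2Space X]
    [CompactSpace X] [ConnectedSpace X] [ChartedSpace (Cm n) X] [IsManifold 𝓘(ℂ, Cm n) ω X]
    (w₀ : Chart n X → Cm n → Matrix (Fin n) (Fin n) ℂ), IsKahler w₀ → NefCanonical w₀ 0 →
    ∀ φ₀ : Chart n X → Cm n → ℝ, IsCanonicalMetric φ₀ →
    0 < intX (fun e z => (cHess (φ₀ e) z).det.re) →
    ∃ v₀ : ℝ, 0 < v₀ ∧ ∀ ε : ℝ, 0 < ε → ∃ (φ : Chart n X → Cm n → ℝ)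
      (w : Chart n X → Cm n → Matrix (Fin n) (Fin n) ℂ) (f : X → ℝ),
      IsCanonicalMetric φ ∧ IsKahler w ∧ SmoothFn (n := n) f ∧ (∀ x, 0 ≤ f x) ∧
      (∀ e x, At e x → (w e (e x) - cHess (φ e) (e x)).PosSemidef ∧
        (w e (e x) + cHess (φ e) (e x)).PosSemidef ∧
        (f x ≤ 1 → (2 • cHess (φ e) (e x) - w e (e x)).PosSemidef)) ∧
      v₀ ≤ intX (fun e z => (w e z).det.re) ∧
      intX (fun e z => f (e.symm z) * (w e z).det.re) ≤ ε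

/-- **MAIN**: many sections of `kL` -/
def Spec_MAIN : Prop := ∀ (n : ℕ), 1 ≤ n → ∀ (X : Type) [TopologicalSpace X] [T2Space X]
    [CompactSpace X] [Nonempty X] [ChartedSpace (Cm n) X] [IsManifold 𝓘(ℂ, Cm n) ω X],
    ∃ a b : ℝ, 0 < a ∧ 0 < b ∧ ∀ (c : Chart n X → Chart n X → X → ℂ), IsCoc c →
    ∀ (φ : Chart n X → Cm n → ℝ) (w : Chart n X → Cm n → Matrix (Fin n) (Fin n) ℂ)
      (f : X → ℝ), IsWt c φ → IsKahler w → SmoothFn (n := n) f → (∀ x, 0 ≤ f x) →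
      (∀ e x, At e x → (w e (e x) - cHess (φ e) (e x)).PosSemidef ∧
        (w e (e x) + cHess (φ e) (e x)).PosSemidef ∧
        (f x ≤ 1 → (2 • cHess (φ e) (e x) - w e (e x)).PosSemidef)) →
      ∃ k₀ : ℕ, ∀ k : ℕ, k₀ ≤ k → ∃ (N : ℕ) (s : Fin N → Chart n X → Cm n → ℂ),
        (k : ℝ) ^ n * (a * intX (fun e z => (w e z).det.re) -
          b * intX (fun e z => f (e.symm z) * (w e z).det.re)) ≤ N ∧
        (∀ i, IsHol c k (s i)) ∧ LI s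

/-! ### the abstract lemma -/

open Vale.Agent.P299.H863 in
/-- **AB** (abstract index type lemma): an a priori estimate with `N` conditions in degree `1` and a
space `W` of vectors of small energy in degree `0` give a space of dimension `≥ dim W - N` of smooth
solutions of `D u = 0` in degree `0`. -/
def Spec_AB : Prop := ∀ (S : Type) [NormedAddCommGroup S] [InnerProductSpace ℂ S]
    (D P₀ P₁ P₂ : S →ₗ[ℂ] S) (J : ℕ → S →ₗ[ℂ] S),
    (∀ u v, inner ℂ (D u) v = inner ℂ u (D v)) → OProj ℂ P₀ → OProj ℂ P₁ → OProj ℂ P₂ →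
    (∀ u, P₀ (P₁ u) = 0) → (∀ u, P₀ (P₂ u) = 0) → (∀ u, P₁ (P₂ u) = 0) →
    (∀ u, P₁ (D (P₀ u)) = D (P₀ u)) → (∀ u, P₀ (D (P₁ u)) + P₂ (D (P₁ u)) = D (P₁ u)) →
    (∀ u, P₂ (D (D (P₀ u))) = 0) → (∀ u, P₁ (D (P₂ (D (P₁ u)))) = D (P₂ (D (P₁ u)))) →
    Smoothing ℂ J → SmoothingComm D J J →
    (∀ w : ℕ → S, (∀ n, P₀ (w n) = w n) → CauchySeq w →
      Tendsto (fun n => D (w n)) atTop (𝓝 0) → ∃ s, Tendsto w atTop (𝓝 s)) →
    ∀ (N : ℕ) (ℓ : Fin N → S →L[ℂ] ℂ) (lam mu K : ℝ), 0 < lam → mu < lam →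
    (∀ v, P₁ v = v → lam * ‖v‖ ^ 2 ≤ ‖D v‖ ^ 2 + K * ∑ i, ‖ℓ i v‖ ^ 2) →
    ∀ W : Submodule ℂ S, FiniteDimensional ℂ W → (∀ u ∈ W, P₀ u = u) →
    (∀ u ∈ W, ‖D u‖ ^ 2 ≤ mu * ‖u‖ ^ 2) →
    ∃ K' : Submodule ℂ S, FiniteDimensional ℂ K' ∧ (∀ u ∈ K', P₀ u = u ∧ D u = 0) ∧
      Module.finrank ℂ W ≤ Module.finrank ℂ K' + N

end Vale.Agent.P284.H747
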