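import Vale.Agent.P284.H747.MainA
import Vale.Agent.P284.H723.SpecFL
import Vale.Agent.P284.H377.VL
import Vale.Agent.P284.H888.LW
import Vale.Agent.P284.H940.SG
import Vale.Agent.P284.H924.ABSpec
import Vale.Agent.P284.H924.Vol
import Vale.Agent.P284.H248.Defs
import Vale.Agent.P272.KOD.PeakD

/-!
# P284: `K_X` nef and big implies that the Kodaira dimension is maximal (MP)
-/

open scoped Manifold ContDiff ComplexOrder Topology Matrix ComplexConjugate
open MeasureTheory Set Filter
open Vale.Agent.P272.K Vale.Agent.P272.K.INT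
open Vale.Agent.P272.KOD (PSec JetAt)

set_option linter.unusedSectionVars false

noncomputable section

namespace Vale.Agent.P284.H747

variable {n : ℕ} {X : Type} [TopologicalSpace X] [ChartedSpace (Cm n) X]
  [IsManifold 𝓘(ℂ, Cm n) ω X]

theorem an_det {i j : Chart n X} {x : X} (hi : At i x) (hj : At j x) :
    ContDiffAt ℂ ω (fun z => (jacM i j (i.symm z)).det) (i x) := by
  have h4 : (fun z => (jacM i j (i.symm z)).det) = fun z => ∑ σ : Equiv.Perm (Fin n),
      (Equiv.Perm.sign σ : ℂ) * ∏ a, jacM i j (i.symm z) (σ a) a := by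
    funext z; rw [Matrix.det_apply']
  rw [h4]
  exact ContDiffAt.sum fun σ _ => contDiffAt_const.mul (contDiffAt_prod fun a _ =>
    Vale.Agent.P272.K.jacM_holo hi hj _ _)

theorem isCoc_canC : IsCoc (canC (n := n) (X := X)) where
  an e e' x hx hx' := (an_det hx hx').inv (by rw [hx.left_inv]; exact jacM_det_ne_zero hx hx')
  ne e e' x hx hx' := inv_ne_zero (jacM_det_ne_zero hx hx')
  self e x hx := by
    rw [canC, jacM_self hx, Matrix.det_one, inv_one]
  mul e e' e'' x h1 h2 h3 := by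
    rw [canC, canC, canC, jacM_comp h1 h2 h3, Matrix.det_mul, mul_inv, mul_comm]

theorem isWt_canC {φ : Chart n X → Cm n → ℝ} (hφ : IsCanonicalMetric φ) :
    IsWt (canC (n := n) (X := X)) φ where
  smooth := hφ.smooth
  change e e' x hx hx' := by
    rw [hφ.change e e' x hx hx', canC, norm_inv, inv_pow, Real.log_inv]
    ring

/-- the section of `K_X^m` -/
def toPSec {m : ℕ} {s : Chart n X → Cm n → ℂ} (hs : IsHol (canC (n := n) (X := X)) m s) :
    PSec n m X where
  coeff := s
  holo := hs.holo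
  change e e' x hx hx' := by
    rw [← hs.change e e' x hx hx', canC, inv_pow]
    have := jacM_det_ne_zero hx hx'
    field_simp

/-- **MP**: if `K_X` is nef and `c_1(K_X)^n > 0` then the pluricanonical map is generically
immersive -/
theorem mp (hn : 1 ≤ n) [T2Space X] [CompactSpace X] [ConnectedSpace X]
    {w : Chart n X → Cm n → Matrix (Fin n) (Fin n) ℂ} (hw : IsKahler w) (hnef : NefCanonical w 0)
    {φ : Chart n X → Cm n → ℝ} (hφ : IsCanonicalMetric φ) {I : ℝ} (hI : 0 < I)
    (hint : IsIntegral (fun e z => (cHess (φ e) z).det.re) I) :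
    ∃ m : ℕ, 1 ≤ m ∧ ∃ x : X, JetAt n m x := by
  have hI' : 0 < intX (fun (e : Chart n X) z => (cHess (φ e) z).det.re) := by
    rw [intX_eq_of_isIntegral hint]; exact hI
  obtain ⟨v₀, hv₀, hvol⟩ := H924.VOL n hn X w hw hnef φ hφ hI'
  obtain ⟨a, b, ha, hb, hmain⟩ := main (H377.VL H723.spec_FL) H888.LW H924.AB n hn X
  have hε : 0 < a * v₀ / (2 * b) := by positivity
  obtain ⟨φ₁, w₁, f, hφ₁, hw₁, hf, hf0, hpos, hv1, hF⟩ := hvol _ hε
  obtain ⟨k₀, hk₀⟩ := hmain canC isCoc_canC φ₁ w₁ f (isWt_canC hφ₁) hw₁ hf hf0 hpos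
  obtain ⟨m, hm, s, hs, e, x, hx, h0, hdet⟩ := H940.spec_SG n hn X canC isCoc_canC (a * v₀ / 2)
    (by positivity) fun k => by
    obtain ⟨N, s, h1, h2, h3⟩ := hk₀ (max k k₀) (le_max_right _ _)
    refine ⟨max k k₀, le_max_left _ _, N, s, le_trans ?_ h1, h2, h3⟩
    have h4 : a * v₀ / 2 ≤ a * intX (fun e z => (w₁ e z).det.re) -
        b * intX (fun e z => f (e.symm z) * (w₁ e z).det.re) := by
      have h5 : b * intX (fun e z => f (e.symm z) * (w₁ e z).det.re) ≤ a * v₀ / 2 := by
        calc _ ≤ b * (a * v₀ / (2 * b)) := mul_le_mul_of_nonneg_left hF hb.le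
          _ = _ := by field_simp
      have h6 : a * v₀ ≤ a * intX (fun e z => (w₁ e z).det.re) :=
        mul_le_mul_of_nonneg_left hv1 ha.le
      linarith
    calc a * v₀ / 2 * ((max k k₀ : ℕ) : ℝ) ^ n = ((max k k₀ : ℕ) : ℝ) ^ n * (a * v₀ / 2) := by ring
      _ ≤ _ := mul_le_mul_of_nonneg_left h4 (by positivity)
  exact ⟨m, hm, x, fun i => toPSec (hs i), e, hx, h0, hdet⟩

end Vale.Agent.P284.H747
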