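import Vale.Agent.P284.H747.VolB

/-!
# P284: MAIN, many sections of `kL`
-/

open scoped Manifold ContDiff ComplexOrder Topology Matrix ComplexConjugate
open MeasureTheory Set Filter
open Vale.Agent.P272.K Vale.Agent.P272.K.C2 Vale.Agent.P299.H954 Vale.Agent.P299.IX
open Vale.Agent.P301.H599 Vale.Agent.P299.H863 Vale.Agent.P301.H862
open Vale.Agent.P299.IX.Fock
open Vale.Agent.P272.K.INT (intX IsDensity intX_add intX_sub intX_const_mul intX_congr intX_nonneg
  intX_mono intX_of_support intX_sum)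

set_option linter.unusedSectionVars false

noncomputable section

namespace Vale.Agent.P284.H747

variable {n : ℕ} {X : Type} [TopologicalSpace X] [ChartedSpace (Cm n) X]
  [IsManifold 𝓘(ℂ, Cm n) ω X] [CompactSpace X] [T2Space X]
  {c : Chart n X → Chart n X → X → ℂ} {φ : Chart n X → Cm n → ℝ}
  {w : Chart n X → Cm n → Matrix (Fin n) (Fin n) ℂ}

/-- the final count -/
theorem count (hc : IsCoc c) (hφ : IsWt c φ) (hw : IsKahler w) {k : ℕ}
    {K' : Submodule ℂ (Bk hc hφ hw k).S} (hfd : FiniteDimensional ℂ K')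
    (h : ∀ u ∈ K', (Bk hc hφ hw k).dg n u = u ∧ (Bk hc hφ hw k).D u = 0) :
    ∃ s : Fin (Module.finrank ℂ K') → Chart n X → Cm n → ℂ, (∀ i, IsHol c k (s i)) ∧ LI s := by
  let b := Module.finBasis ℂ K'
  refine ⟨fun i => topS ((b i : K') : (Bk hc hφ hw k).S), fun i => ?_, ?_⟩
  · exact isHol_topS (h _ (b i).2).1 (h _ (b i).2).2
  · refine li_topS (fun a => (h _ (b a).2).1) ?_
    have := b.linearIndependent.map' K'.subtype (Submodule.ker_subtype _)
    exact this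

theorem smoothOn_phi (hφ : IsWt c φ) {e : Chart n X} (he : e ∈ atlas (Cm n) X) {U : Set (Cm n)}
    (hU : U ⊆ e.target) : ContDiffOn ℝ ∞ (φ e) U := by
  intro z hz
  have := hφ.smooth e (e.symm z) (P272.K.At.of_target he (hU hz))
  rw [e.right_inv (hU hz)] at this
  exact this.contDiffWithinAt

theorem smoothOn_w (hw : IsKahler w) {e : Chart n X} (he : e ∈ atlas (Cm n) X) {U : Set (Cm n)}
    (hU : U ⊆ e.target) (i j : Fin n) : ContDiffOn ℝ ∞ (fun z => w e z i j) U := by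
  intro z hz
  have := hw.smooth e (e.symm z) (P272.K.At.of_target he (hU hz)) i j
  rw [e.right_inv (hU hz)] at this
  exact this.contDiffWithinAt

theorem main (hVL : Spec_VL) (hLW : Spec_LW) (hAB : Spec_AB) : Spec_MAIN := by
  intro n hn X _ _ _ _ _ _
  obtain ⟨C₁, hC₁, hVL⟩ := hVL n hn 2 (by norm_num)
  obtain ⟨c₂, hc₂, hLW⟩ := hLW n hn
  set P := INT.part n X with hP
  have hM : 0 < P.N := by
    by_contra h0
    have h1 : P.N = 0 := by omega
    have h2 := P.sum (Classical.arbitrary X)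
    have : IsEmpty (Fin P.N) := by rw [h1]; infer_instance
    rw [Finset.univ_eq_empty, Finset.sum_empty] at h2
    exact zero_ne_one h2
  have hMr : (0 : ℝ) < P.N := by exact_mod_cast hM
  have hV : ∀ i, ∃ V, IsOpen V ∧ tsupport (P.ρ i) ⊆ V ∧ closure V ⊆ (P.e i).source := fun i =>
    normal_exists_closure_subset (isClosed_tsupport _) (P.e i).open_source (P.supp i)
  choose V hVo hVs hVe using hV
  refine ⟨c₂ / P.N, c₂ / P.N + 2 * P.N * C₁, by positivity, by positivity, ?_⟩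
  intro c hc φ w f hφ hw hf hf0 hpos
  have hfc : Continuous f := INT.SmoothFn.continuous hf
  set I := intX (fun (e : Chart n X) z => (w e z).det.re) with hI
  set F := intX (fun (e : Chart n X) z => f (e.symm z) * (w e z).det.re) with hF
  obtain ⟨χ, hχ, hχ1, hχ0, hχs⟩ := exists_fns P hf
  obtain ⟨CR, hCR, hric⟩ := exists_ric hw
  obtain ⟨CI, hCI, hims⟩ := exists_ims hc hφ hw hχ hχ1
  -- the sets
  set U : Fin P.N → Set (Cm n) := fun i => pre (P.e i) (V i ∩ {x | 1 / 2 < f x}) with hU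
  have hUt : ∀ i, U i ⊆ (P.e i).target := fun i z hz => hz.1
  have hsupp : ∀ i : Fin P.N, tsupport (χ i.succ) ⊆ (P.e i).source := fun i =>
    ((hχs i).trans inter_subset_left).trans (P.supp i)
  have hPU : ∀ i : Fin P.N, P.e i '' tsupport (χ i.succ) ⊆ U i := by
    rintro i _ ⟨x, hx, rfl⟩
    have h1 := hχs i hx
    refine ⟨(P.e i).map_source (hsupp i hx), ?_⟩
    rw [mem_preimage, (P.e i).left_inv (hsupp i hx)]
    refine ⟨hVs i h1.1, ?_⟩
    have : 6 / 10 ≤ f x := h1.2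
    show 1 / 2 < f x
    linarith
  -- VL in each chart
  have hv : ∀ i, ∃ k₀ : ℕ, ∀ k : ℕ, k₀ ≤ k → ∃ (N : ℕ) (h : Fin N → Cm n → FI n → ℂ) (K : ℝ),
      (N : ℝ) ≤ C₁ * (k : ℝ) ^ n * (∫ z in U i, (w (P.e i) z).det.re) ∧ 0 ≤ K ∧
      (∀ j, Measurable (h j)) ∧ (∀ j, ∃ M : ℝ, ∀ z i, ‖h j z i‖ ≤ M) ∧
      ∀ v : Cm n → FI n → ℂ, ContDiff ℝ ∞ v → tsupport v ⊆ P.e i '' tsupport (χ i.succ) →
        2 * k * (∫ z, (G.hp (Hk (φ (P.e i)) (w (P.e i)) k) (w (P.e i)) z (v z) (v z)).re) ≤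
          (∫ z, (G.gradb (Hk (φ (P.e i)) (w (P.e i)) k) (w (P.e i)) v v z).re) +
            K * ∑ j, ‖∫ z, ∑ l, v z l * h j z l‖ ^ 2 := by
    intro i
    have hat : ∀ z ∈ U i, P272.K.At (P.e i) ((P.e i).symm z) := fun z hz =>
      P272.K.At.of_target (P.mem i) (hUt i hz)
    refine hVL (P.e i '' tsupport (χ i.succ)) (U i) (φ (P.e i)) (w (P.e i))
      (cpt_image (isClosed_tsupport _) (hsupp i))
      (isOpen_pre _ ((hVo i).inter (isOpen_lt continuous_const hfc))) (hPU i)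
      (smoothOn_phi hφ (P.mem i) (hUt i)) (smoothOn_w hw (P.mem i) (hUt i)) ?_ ?_ ?_
    · intro z hz
      have := hw.posDef _ _ (hat z hz)
      rwa [(P.e i).right_inv (hUt i hz)] at this
    · intro z hz
      have := hpos _ _ (hat z hz)
      rw [(P.e i).right_inv (hUt i hz)] at this
      exact ⟨this.1, this.2.1⟩
    · exact (intOn_det hw (P.mem i) isClosed_closure (hVe i)).mono_set
        (pre_sub_image (inter_subset_left.trans subset_closure))
  choose kv hv using hv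
  -- the best chart
  have hlow := vol_low hw hfc hf0 hVo hVs hVe
  obtain ⟨i₀, -, hi₀⟩ : ∃ i ∈ (Finset.univ : Finset (Fin P.N)), (I - F) / P.N ≤
      ∫ z in pre (P.e i) (V i ∩ {x | f x < 1}), (w (P.e i) z).det.re := by
    refine Finset.exists_le_of_sum_le (f := fun _ => (I - F) / P.N) ⟨⟨0, hM⟩, Finset.mem_univ _⟩ ?_
    rw [Finset.sum_const, Finset.card_univ, Fintype.card_fin, nsmul_eq_mul,
      mul_div_cancel₀ _ hMr.ne']
    exact hlow
  set Q := pre (P.e i₀) (V i₀ ∩ {x | f x < 1}) with hQ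
  have hQt : Q ⊆ (P.e i₀).target := fun z hz => hz.1
  have hQK : Q ⊆ P.e i₀ '' closure (V i₀) :=
    pre_sub_image (inter_subset_left.trans subset_closure)
  have hKc := cpt_image (e := P.e i₀) isClosed_closure (hVe i₀)
  obtain ⟨kw, hkw⟩ := hLW Q (P.e i₀).target (φ (P.e i₀)) (w (P.e i₀))
    (isOpen_pre _ ((hVo i₀).inter (isOpen_lt hfc continuous_const)))
    (hKc.isBounded.subset hQK) (P.e i₀).open_target
    ((closure_minimal hQK hKc.isClosed).trans (image_sub (hVe i₀)))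
    (smoothOn_phi hφ (P.mem i₀) subset_rfl) (smoothOn_w hw (P.mem i₀) subset_rfl)
    (by
      intro z hz
      have := hw.posDef _ _ (P272.K.At.of_target (P.mem i₀) hz)
      rwa [(P.e i₀).right_inv hz] at this)
    (by
      intro z hz
      have := hpos _ _ (P272.K.At.of_target (P.mem i₀) (hQt hz))
      rw [(P.e i₀).right_inv (hQt hz)] at this
      exact ⟨this.1, this.2.2 (le_of_lt hz.2.2)⟩)
  refine ⟨∑ i, kv i + kw + ⌈4 * (CR + CI)⌉₊ + 1, fun k hk => ?_⟩
  have hk1 : 1 ≤ k := by omega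
  have hkw' : kw ≤ k := by omega
  have hkv : ∀ i, kv i ≤ k := fun i =>
    (Finset.single_le_sum (f := kv) (fun _ _ => Nat.zero_le _) (Finset.mem_univ i)).trans
      (by omega)
  have hkC : 4 * (CR + CI) ≤ k := by
    refine (Nat.le_ceil _).trans ?_
    exact_mod_cast (by omega : ⌈4 * (CR + CI)⌉₊ ≤ k)
  have hk0 : (0 : ℝ) < k := by exact_mod_cast hk1
  have hv' := fun i => hv i k (hkv i)
  choose N h K hN hK hm hb hest using hv'
  obtain ⟨NW, us, hNW, hus, husd, husE⟩ := hkw k hkw'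
  obtain ⟨W, hWf, hWr, hWd, hWD⟩ := exists_W (hc := hc) (hφ := hφ) (hw := hw) (k := k)
    (P.mem i₀) hQt hus husd (μ := k / 100) husE
  obtain ⟨ℓ, hℓ⟩ := est_main (hc := hc) (hφ := hφ) (hw := hw) (k := k) hχ hχ1 P.mem hsupp hn hric
    (fun e x hx => (hpos e x hx).2.1)
    (fun e x hx h0 => (hpos e x hx).2.2 ((hχ0 x h0).le.trans (by norm_num)))
    (hims k) hK hm hb hest
  have hsum : ∀ s, ∑ i, ∑ j, ‖ℓ i j s‖ ^ 2 =
      ∑ p, ‖ℓ (finSigmaFinEquiv.symm p).1 (finSigmaFinEquiv.symm p).2 s‖ ^ 2 := by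
    intro s
    rw [finSigmaFinEquiv.symm.sum_comp fun q : (i : Fin P.N) × Fin (N i) => ‖ℓ q.1 q.2 s‖ ^ 2]
    rw [Fintype.sum_sigma]
  obtain ⟨K', hKf, hK', hKr⟩ := ab_app hAB hn (Bk hc hφ hw k)
    (fun p : Fin (∑ i, N i) => ℓ (finSigmaFinEquiv.symm p).1 (finSigmaFinEquiv.symm p).2)
    (lam := k / 4) (mu := k / 100) (K := ∑ i, K i) (by positivity) (by linarith)
    (fun v hv => by
      have h1 := hℓ v hv
      rw [hsum] at h1
      refine le_trans ?_ h1
      exact mul_le_mul_of_nonneg_right (by linarith) (sq_nonneg _))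
    hWf hWd hWD
  obtain ⟨s, hs1, hs2⟩ := count hc hφ hw hKf hK'
  refine ⟨_, s, ?_, hs1, hs2⟩
  rw [hWr] at hKr
  have hKr' : (NW : ℝ) ≤ Module.finrank ℂ K' + ∑ i, (N i : ℝ) := by exact_mod_cast hKr
  have hkn : (0 : ℝ) < (k : ℝ) ^ n := by positivity
  have hNs : ∑ i, (N i : ℝ) ≤ P.N * (C₁ * (k : ℝ) ^ n * (2 * F)) := by
    calc ∑ i, (N i : ℝ) ≤ ∑ _i : Fin P.N, C₁ * (k : ℝ) ^ n * (2 * F) := by
          refine Finset.sum_le_sum fun i _ => (hN i).trans ?_
          exact mul_le_mul_of_nonneg_left (vol_up hw hfc hf0 (P.mem i) (hVo i) (hVe i))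
            (by positivity)
      _ = _ := by simp
  have hNW' : c₂ * (k : ℝ) ^ n * ((I - F) / P.N) ≤ NW :=
    (mul_le_mul_of_nonneg_left hi₀ (by positivity)).trans hNW
  have e1 : (k : ℝ) ^ n * (c₂ / P.N * I - (c₂ / P.N + 2 * P.N * C₁) * F) =
      c₂ * (k : ℝ) ^ n * ((I - F) / P.N) - P.N * (C₁ * (k : ℝ) ^ n * (2 * F)) := by
    field_simp
    ring
  rw [e1]
  linarith

end Vale.Agent.P284.H747
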