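import Vale.Agent.P284.H747.Sp
import Vale.Agent.P284.H747.Cover
import Vale.Agent.P223.H959.Zero
import Vale.Agent.P223.H959.All
import Vale.Agent.P223.H959.L2
import Vale.Agent.P223.H209.Leb
import Vale.Agent.P272.TOP.Q1

/-!
# P284: special manifolds with nef canonical bundle
-/

open scoped Manifold ContDiff ComplexOrder Topology
open Set Filter Metric
open Vale.Agent.P272.K Vale.Agent.P272.K.INT
open Vale.Agent.P272.KOD (PSec JetAt AmpleCanonical)
open Vale.Agent.P284.H248 (Special)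
open Vale.Agent.P223.K (sv)
open Vale.Agent.P223.H959 (realAtlas)

set_option linter.unusedSectionVars false

noncomputable section

namespace Vale.Agent.P284.H747

variable {n : ℕ} {X : Type} [TopologicalSpace X] [T2Space X] [CompactSpace X] [ConnectedSpace X]
  [ChartedSpace (Cm n) X] [IsManifold 𝓘(ℂ, Cm n) ω X]
  {w : Chart n X → Cm n → Matrix (Fin n) (Fin n) ℂ}

/-- `c_1(K_X)^n ≥ 0` if `K_X` is nef -/
theorem intX_nonneg_of_nef (hw : IsKahler w) (hnef : NefCanonical w 0) {φ : Chart n X → Cm n → ℝ}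
    (hφ : IsCanonicalMetric φ) : 0 ≤ intX (fun (e : Chart n X) z => (cHess (φ e) z).det.re) := by
  have hwc := IsKahler.isClosedForm hw
  obtain ⟨q, hq⟩ := H924.PP_poly hφ hwc
  have h0 : intX (fun (e : Chart n X) z => (cHess (φ e) z).det.re) = q.eval 0 := by
    rw [← hq]
    refine intX_congr fun e x _ => ?_
    simp
  rw [h0]
  have h1 : Tendsto (fun t => q.eval t) (𝓝[>] (0 : ℝ)) (𝓝 (q.eval 0)) :=
    (q.continuous.tendsto 0).mono_left nhdsWithin_le_nhds
  refine ge_of_tendsto h1 ?_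
  filter_upwards [eventually_mem_nhdsWithin] with t ht
  obtain ⟨φ', hφ', hpos⟩ := hnef t ht
  simp only [zero_add] at hpos
  rw [← hq, PP_eq hφ hφ' hwc]
  refine intX_nonneg fun e x hx => ?_
  have := (hpos e x hx).det_nonneg
  exact (Complex.le_def.1 this).1

theorem zero_of_special (hn : 1 ≤ n) (hsp : Special n X) (hw : IsKahler w)
    (hnef : NefCanonical w 0) {φ : Chart n X → Cm n → ℝ} (hφ : IsCanonicalMetric φ) :
    IsIntegral (fun e z => (cHess (φ e) z).det.re) 0 := by
  have hD : IsDensity (fun (e : Chart n X) z => (cHess (φ e) z).det.re) :=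
    (isClosedForm_canonical hφ).isDensity
  have h1 := hD.isIntegral
  have h2 := intX_nonneg_of_nef hw hnef hφ
  rcases h2.eq_or_lt with h3 | h3
  · rw [h3]; exact h1
  · obtain ⟨m, hm, x, hx⟩ := mp hn hw hnef hφ h3 h1
    exact absurd hx (not_jet_of_special hn hsp hm x)

/-- discs -/
theorem jet_of_discsBounded (hn : 1 ≤ n) (hw : IsKahler w)
    (hnef : NefCanonical w 0) {x : X} (h : DiscsBounded n x) :
    ∃ m : ℕ, 1 ≤ m ∧ ∃ x : X, JetAt n m x := by
  obtain ⟨M, hM⟩ := discBound_of_discsBounded hw.toIsHermitian h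
  obtain ⟨φ, hφ, -⟩ := hnef 1 one_pos
  have h1 := Vale.Agent.P285.OP.big_of_point hw Vale.Agent.P223.H959.closed_zero
    (Vale.Agent.P223.H959.nefAdjoint_zero hnef) hφ hM
    (Vale.Agent.P285.OP.nefFormAt_of_nonneg hw (fun _ _ _ => Matrix.PosSemidef.zero) x)
  obtain ⟨I, hI, hint⟩ := h1
  simp only [add_zero] at hint
  exact mp hn hw hnef hφ hI hint

theorem unbounded_of_special (hn : 1 ≤ n) (hsp : Special n X) (hw : IsKahler w)
    (hnef : NefCanonical w 0) (x : X) : ¬ DiscsBounded n x := by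
  intro h
  obtain ⟨m, hm, y, hy⟩ := jet_of_discsBounded hn hw hnef h
  exact not_jet_of_special hn hsp hm y hy

/-- a special manifold of positive dimension contains an entire curve -/
theorem not_brody_of_special (hn : 1 ≤ n) (hsp : Special n X) (hw : IsKahler w) :
    ¬ BrodyHyperbolic n X := by
  intro hX
  obtain ⟨φ, hφ, hpos⟩ := Vale.Agent.P272.TOP.xam n hn X hX w hw
  have hnef : NefCanonical w 0 := by
    intro ε hε
    refine ⟨φ, hφ, fun e x hx => ?_⟩
    rw [zero_add]
    exact (hpos e x hx).posSemidef.add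
      ((hw.posDef e x hx).smul (by exact_mod_cast hε : (0 : ℂ) < (ε : ℂ))).posSemidef
  have h0 := zero_of_special hn hsp hw hnef hφ
  have h1 := intX_pos (D := fun (e : Chart n X) z => (cHess (φ e) z).det.re)
    (isClosedForm_canonical hφ).isDensity fun e x hx => C2.det_re_pos (hpos e x hx)
  rw [intX_eq_of_isIntegral h0] at h1
  exact lt_irrefl _ h1

/-- the simplicial volume -/
theorem sv_zero_of_special (hn : 2 ≤ n) (hsp : Special n X) (hw : IsKahler w)
    (hnef : NefCanonical w 0) : sv (realAtlas n X) = 0 := by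
  obtain ⟨φ, hφ, -⟩ := hnef 1 one_pos
  obtain ⟨I, -, hI, -, hpos⟩ := Vale.Agent.P223.H959.canonical_bound Vale.Agent.P223.H959.blocks
      (Vale.Agent.P223.H959.specTot_of Vale.Agent.P223.H209.specLeb) hn X w hw hnef φ hφ
  by_contra h
  have h1 := hpos h
  have h2 := zero_of_special (by omega) hsp hw hnef hφ
  have h3 : I = 0 := by
    rw [← intX_eq_of_isIntegral hI, intX_eq_of_isIntegral h2]
  exact h1.ne' h3

theorem jet_of_sv (hn : 2 ≤ n) (hw : IsKahler w) (hnef : NefCanonical w 0)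
    (h : sv (realAtlas n X) ≠ 0) : ∃ m : ℕ, 1 ≤ m ∧ ∃ x : X, JetAt n m x := by
  obtain ⟨φ, hφ, -⟩ := hnef 1 one_pos
  obtain ⟨I, -, hI, -, hpos⟩ := Vale.Agent.P223.H959.canonical_bound Vale.Agent.P223.H959.blocks
      (Vale.Agent.P223.H959.specTot_of Vale.Agent.P223.H209.specLeb) hn X w hw hnef φ hφ
  exact mp (by omega) hw hnef hφ (hpos h) hI

/-- maps from coverings -/
theorem cover_of_special (hn : 1 ≤ n) (hsp : Special n X) (hw : IsKahler w)
    (hnef : NefCanonical w 0) {D : Type} [TopologicalSpace D] [ChartedSpace (Cm n) D]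
    [IsManifold 𝓘(ℂ, Cm n) ω D] {p : D → X} (hp : IsCoveringMap p)
    (hpl : IsLocalDiffeomorph 𝓘(ℂ, Cm n) 𝓘(ℂ, Cm n) ω p) (y : D) : ¬ DiscsBounded n y := fun h =>
  unbounded_of_special hn hsp hw hnef (p y) (discsBounded_of_cover hp hpl h)

end Vale.Agent.P284.H747
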