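import Vale.Agent.P284.H747.Ims
import Vale.Agent.P272.K.QN.H527.Tools

/-!
# P284: the zeroth order term in degree `p`
-/

open scoped Manifold ContDiff ComplexOrder Topology Matrix ComplexConjugate
open MeasureTheory Set Filter
open Vale.Agent.P272.K Vale.Agent.P272.K.C2 Vale.Agent.P299.H954 Vale.Agent.P299.IX
open Vale.Agent.P301.H599 Vale.Agent.P299.H863 Vale.Agent.P301.H862
open Vale.Agent.P299.IX.Fock
open Vale.Agent.P272.K.INT (intX IsDensity intX_add intX_sub intX_const_mul intX_congr intX_nonneg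
  intX_mono intX_of_support intX_sum)

set_option linter.unusedSectionVars false

noncomputable section

namespace Vale.Agent.P284.H747

section loc

variable {n : ℕ} {w : Cm n → Matrix (Fin n) (Fin n) ℂ} {f : Cm n → ℝ} {z : Cm n} {p : ℕ}

theorem sum_iot_eps {u : FI n → ℂ} (hu : ∀ I : FI n, I.card ≠ p → u I = 0) :
    (∑ l, iot l * eps l) *ᵥ u = ((n : ℂ) - p) • u := by
  have h1 : ∀ l : Fin n, iot l * eps l = 1 - eps l * iot l := by
    intro l
    have := car l l
    rw [if_pos rfl] at this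
    rw [← this, add_sub_cancel_right]
  ext I
  rw [Matrix.sum_mulVec, Finset.sum_apply]
  have h2 : ∀ l : Fin n, ((iot l * eps l) *ᵥ u) I = u I - if l ∈ I then u I else 0 := by
    intro l
    rw [h1, Matrix.sub_mulVec, Matrix.one_mulVec, Pi.sub_apply, eps_iot_mulVec]
  simp only [h2, Finset.sum_sub_distrib, Finset.sum_const, Finset.card_univ, Fintype.card_fin,
    nsmul_eq_mul, Finset.sum_ite_mem, Finset.univ_inter, Pi.smul_apply, smul_eq_mul]
  by_cases h : I.card = p
  · rw [h]; ring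
  · rw [hu I h]; ring

theorem sum_w_gram_eq (h : KAt w z) {u : FI n → ℂ} (hu : ∀ I : FI n, I.card ≠ p → u I = 0) :
    ∑ l, ∑ b, w z l b * hw f w z (eps l *ᵥ u) (eps b *ᵥ u) = ((n : ℂ) - p) * hw f w z u u := by
  have h1 : ∀ l, ∑ b, w z l b * hw f w z (eps l *ᵥ u) (eps b *ᵥ u) =
      hw f w z ((iot l * eps l) *ᵥ u) u := by
    intro l
    have h2 : ∀ b, w z l b * hw f w z (eps l *ᵥ u) (eps b *ᵥ u) =
        hw f w z ((w z l b • epd b w z) *ᵥ (eps l *ᵥ u)) u := by
      intro b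
      rw [hw_eps_right h, Matrix.smul_mulVec, hw_smul_left]
    simp only [h2]
    rw [← hw_sum_left, ← Matrix.sum_mulVec, sum_w_epd h, Matrix.mulVec_mulVec]
  simp only [h1]
  rw [← hw_sum_left, ← Matrix.sum_mulVec, sum_iot_eps hu, hw_smul_left]

/-- lower bound of the zeroth order term in degree `p` -/
theorem Qw_lower_deg (h : KAt w z) {a : ℝ} {u : FI n → ℂ} (hu : ∀ I : FI n, I.card ≠ p → u I = 0)
    (hA : (cHess f z - (a : ℂ) • w z).PosSemidef) :
    a * ((n : ℝ) - p) * (hw f w z u u).re ≤ (hw f w z (Qw f w z u) u).re := by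
  have h1 : hw f w z (Qw f w z u) u =
      ∑ l, ∑ b, (cHess f z - (a : ℂ) • w z) l b * hw f w z (eps l *ᵥ u) (eps b *ᵥ u) +
        (a : ℂ) * (((n : ℂ) - p) * hw f w z u u) := by
    rw [← sum_w_gram_eq h hu, Qw, hw_sum_left, Finset.mul_sum, ← Finset.sum_add_distrib]
    refine Finset.sum_congr rfl fun l _ => ?_
    rw [hw_sum_left, Finset.mul_sum, ← Finset.sum_add_distrib]
    refine Finset.sum_congr rfl fun b _ => ?_
    rw [hw_smul_left, ← hw_eps_right h, Matrix.sub_apply, Matrix.smul_apply, smul_eq_mul]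
    ring
  have h2 := sum_gram_nonneg (f := f) h hA (fun l => eps l *ᵥ u)
  have h3 : ((a : ℂ) * (((n : ℂ) - p) * hw f w z u u)).re =
      a * ((n : ℝ) - p) * (hw f w z u u).re := by
    rw [← mul_assoc, show (a : ℂ) * ((n : ℂ) - p) = ((a * ((n : ℝ) - p) : ℝ) : ℂ) by push_cast; ring,
      Complex.re_ofReal_mul]
  rw [h1, Complex.add_re, h3]
  linarith

end loc

section glob

variable {n : ℕ} {X : Type} [TopologicalSpace X] [ChartedSpace (Cm n) X]
  [IsManifold 𝓘(ℂ, Cm n) ω X] {ι : Type} {B : HB n X ι} {i j : ι} {e e' : Chart n X} {x : X}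
  {p : ℕ}

theorem comp_of_dg {s : B.S} (hs : B.dg p s = s)
    (hx : P272.K.At e x) (hi : x ∈ B.L.U i) (I : FI n) (hI : I.card ≠ p) :
    s.f i e (e x) I = 0 := by
  have h1 := HB.dgc_at (B := B) (fun q => if q = p then 1 else 0) s hx hi
  have h2 : B.dgc (fun q => if q = p then 1 else 0) s = s := hs
  rw [h2] at h1
  rw [h1, dgl_mulVec, if_neg hI, zero_mul]

variable [T2Space X] [CompactSpace X]

theorem qf_ge {s : B.S} (hs : B.dg p s = s) {a : ℝ}
    (h : ∀ x, ∃ i e, P272.K.At e x ∧ x ∈ B.L.U i ∧ (s.f i e (e x) ≠ 0 →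
      (cHess (wt B.ρ i e) (e x) - (a : ℂ) • B.w e (e x)).PosSemidef)) :
    a * ((n : ℝ) - p) * ‖s‖ ^ 2 ≤ B.qf s := by
  have hDQ := B.dens (s.isSec.QX B.metric B.kahler) s.isSec
  have hDs := B.dens s.isSec s.isSec
  have e1 : B.qf s = intX (reD B.L (hX B.ρ B.w (QX B.ρ B.w s.f) s.f)) :=
    Vale.Agent.P301.H862.intC_re _ _
  rw [e1, HB.norm_sq_eq', ← intX_const_mul]
  refine intX_mono (hDs.isDensity_re.const_mul _) hDQ.isDensity_re fun e x hx => ?_
  obtain ⟨i, e', hx', hi, h6⟩ := h x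
  refine HB.density_le_of_chart (hDs.isDensity_re.const_mul _) hDQ.isDensity_re hx' ?_ hx
  rw [reD_eq hDQ hx' hi]
  show _ * reD B.L _ _ _ ≤ _
  rw [reD_eq hDs hx' hi]
  show a * ((n : ℝ) - p) * (hw _ _ _ _ _).re ≤ (hw _ _ _ (Qw _ _ _ _) _).re
  by_cases h0 : s.f i e' (e' x) = 0
  · rw [h0, hw_zero_left, hw_zero_right, Complex.zero_re, mul_zero]
  · exact Qw_lower_deg (kat B.kahler hx') (comp_of_dg hs hx' hi) (h6 h0)

end glob

section bk

variable {n : ℕ} {X : Type} [TopologicalSpace X] [ChartedSpace (Cm n) X]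
  [IsManifold 𝓘(ℂ, Cm n) ω X] [CompactSpace X]
  {c : Chart n X → Chart n X → X → ℂ} {φ : Chart n X → Cm n → ℝ}
  {w : Chart n X → Cm n → Matrix (Fin n) (Fin n) ℂ}

/-- the Ricci form is bounded -/
theorem exists_ric (hw : IsKahler w) : ∃ C : ℝ, 0 < C ∧ ∀ (e : Chart n X) x, P272.K.At e x →
    ((C : ℂ) • w e (e x) - cHess (fun z => Real.log ((w e z).det.re)) (e x)).PosSemidef := by
  refine P272.K.QN.exists_comparison_form (b := fun e z => cHess (fun z => Real.log ((w e z).det.re)) z)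
    hw.toIsHermitian (fun e x hx i j => ?_) (fun e x hx => ?_) ?_
  · exact contDiffAt_cHess (smooth_logdet hw hx) i j
  · exact C2.cHess_isHermitian ((smooth_logdet hw hx).of_le two_le_inf)
  · refine isForm_canonical (φ := fun e y => Real.log (w e y).det.re)
      (fun e x hx => (smooth_logdet hw hx).of_le two_le_inf) fun e e' x hx hx' => ?_
    have hJ : (jacM e e' x).det ≠ 0 := jacM_det_ne_zero hx hx'
    have hJn : (0 : ℝ) < ‖(jacM e e' x).det‖ ^ 2 := by have := norm_pos_iff.2 hJ; positivity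
    show Real.log ((w e (e x)).det.re) = Real.log ((w e' (e' x)).det.re) + _
    rw [det_change hw hx hx', Real.log_mul hJn.ne' (C2.det_re_pos (hw.posDef e' x hx')).ne',
      add_comm]

omit [CompactSpace X] in
theorem cHess_wt (hφ : IsWt c φ) (hw : IsKahler w) (k : ℕ) {e : Chart n X} {x : X}
    (hx : P272.K.At e x) :
    cHess (wt (rk φ w k) e e) (e x) = (k : ℂ) • cHess (φ e) (e x) -
      cHess (fun z => Real.log ((w e z).det.re)) (e x) := by
  rw [P272.K.cHess_congr (wt_rk φ w k hx)]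
  have h1 : ContDiffAt ℝ 2 (fun z => (k : ℝ) * φ e z) (e x) :=
    contDiffAt_const.mul ((hφ.smooth e x hx).of_le two_le_inf)
  have h2 : ContDiffAt ℝ 2 (fun z => Real.log ((w e z).det.re)) (e x) :=
    (smooth_logdet hw hx).of_le two_le_inf
  have h3 : (fun z => (k : ℝ) * φ e z - Real.log ((w e z).det.re)) =
      fun z => (k : ℝ) * φ e z + (-1) * Real.log ((w e z).det.re) := by
    funext z; ring
  have h4 : ContDiffAt ℝ 2 (fun z => (-1) * Real.log ((w e z).det.re)) (e x) :=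
    contDiffAt_const.mul h2
  have h5 : ∀ (a : ℝ) (g : Cm n → ℝ), ContDiffAt ℝ 2 g (e x) →
      cHess (fun z => a * g z) (e x) = (a : ℂ) • cHess g (e x) := by
    intro a g hg
    ext i j
    simp only [cHess, Matrix.of_apply, Matrix.smul_apply, smul_eq_mul]
    have hg' : ContDiffAt ℝ 2 (fun y => ((g y : ℝ) : ℂ)) (e x) := contDiffAt_ofReal hg
    have e1 : (dzb j fun y => ((a * g y : ℝ) : ℂ)) =ᶠ[𝓝 (e x)]
        fun y => (a : ℂ) * dzb j (fun y => ((g y : ℝ) : ℂ)) y := by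
      filter_upwards [hg'.eventually (by simp)] with y hy
      have e2 : (fun y => ((a * g y : ℝ) : ℂ)) = fun y => (a : ℂ) * ((g y : ℝ) : ℂ) := by
        funext y; push_cast; rfl
      rw [e2]
      exact INT.dzb_const_mul _ (hy.differentiableAt (by norm_num))
    rw [C2.dz_congr i e1]
    exact INT.dz_const_mul _ ((C2.contDiffAt_dzb (m := 1) j hg' (by norm_num)).differentiableAt
      one_ne_zero)
  rw [h3, P272.K.cHess_add h1 h4, h5 _ _ ((hφ.smooth e x hx).of_le two_le_inf), h5 _ _ h2]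
  simp [sub_eq_add_neg]

variable [T2Space X] {hc : IsCoc c} {hφ : IsWt c φ} {hw : IsKahler w} {k : ℕ}

/-- lower bound of the zeroth order term in degree `n - 1` -/
theorem qf_ge_k {C a : ℝ} (hC : ∀ (e : Chart n X) x, P272.K.At e x →
    ((C : ℂ) • w e (e x) - cHess (fun z => Real.log ((w e z).det.re)) (e x)).PosSemidef)
    (hn : 1 ≤ n) {s : (Bk hc hφ hw k).S} (hs : (Bk hc hφ hw k).dg (n - 1) s = s)
    (h : ∀ x, ∃ e, P272.K.At e x ∧ (s.f e e (e x) ≠ 0 →
      (cHess (φ e) (e x) - (a : ℂ) • w e (e x)).PosSemidef)) :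
    (k * a - C) * ‖s‖ ^ 2 ≤ (Bk hc hφ hw k).qf s := by
  have h1 := qf_ge (B := Bk hc hφ hw k) hs (a := k * a - C) fun x => by
    obtain ⟨e, hx, he⟩ := h x
    refine ⟨e, e, hx, hx, fun h0 => ?_⟩
    have h2 := he h0
    show (cHess (wt (rk φ w k) e e) (e x) - ((k * a - C : ℝ) : ℂ) • w e (e x)).PosSemidef
    have h3 : cHess (wt (rk φ w k) e e) (e x) - ((k * a - C : ℝ) : ℂ) • w e (e x) =
        (k : ℂ) • (cHess (φ e) (e x) - (a : ℂ) • w e (e x)) +
          ((C : ℂ) • w e (e x) - cHess (fun z => Real.log ((w e z).det.re)) (e x)) := by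
      rw [cHess_wt hφ hw k hx]
      push_cast
      module
    rw [h3]
    have h4 : ((k : ℂ) • (cHess (φ e) (e x) - (a : ℂ) • w e (e x))).PosSemidef := by
      have : (0 : ℂ) ≤ (k : ℂ) := by exact_mod_cast Nat.zero_le k
      exact h2.smul this
    exact h4.add (hC e x hx)
  have h2 : ((n : ℝ) - ((n - 1 : ℕ) : ℝ)) = 1 := by
    rw [Nat.cast_sub hn]; push_cast; ring
  rw [h2, mul_one] at h1
  exact h1

end bk

end Vale.Agent.P284.H747
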