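import Vale.Agent.P284.H747.Cht
import Vale.Agent.P299.H863.LocR

/-!
# P284: regularity in top degree; sections of top degree supported in a chart
-/

open scoped Manifold ContDiff ComplexOrder Topology Matrix ComplexConjugate
open MeasureTheory Set Filter
open Vale.Agent.P272.K Vale.Agent.P272.K.C2 Vale.Agent.P299.H954 Vale.Agent.P299.IX
open Vale.Agent.P301.H599 Vale.Agent.P299.H863 Vale.Agent.P301.H862
open Vale.Agent.P299.IX.Fock
open Vale.Agent.P272.K.INT (intX IsDensity intX_add intX_sub intX_const_mul intX_congr intX_nonneg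
  intX_mono intX_of_support intX_sum)

set_option linter.unusedSectionVars false

noncomputable section

namespace Vale.Agent.P284.H747

variable {n : ℕ} {X : Type} [TopologicalSpace X] [ChartedSpace (Cm n) X]
  [IsManifold 𝓘(ℂ, Cm n) ω X] [CompactSpace X] [T2Space X] {ι : Type}

/-- regularity of limits in top degree -/
theorem reg_top (B : HB n X ι) {v : ℕ → B.S} (h0 : ∀ j, B.dg n (v j) = v j) (hc : CauchySeq v)
    (hD : Tendsto (fun j => B.D (v j)) atTop (𝓝 0)) : ∃ s, Tendsto v atTop (𝓝 s) := by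
  obtain ⟨T⟩ := exists_triv B.L
  refine (B.locSp T).reg hc fun a ψ hψ b => ?_
  obtain ⟨C, hC0, hC⟩ := B.exists_dbar_le T a hψ b
  have h1 : ∀ j, n2 volume (fun z => ψ z • dbv b ((B.locSp T).r a (v j)) z) ≤
      Real.sqrt C * ‖B.D (v j)‖ := by
    intro j
    refine abs_le_of_sq_le_sq' ?_ (by positivity) |>.2
    rw [mul_pow, Real.sq_sqrt hC0, grad_top (h0 j)]
    exact hC (v j)
  refine squeeze_zero (fun j => n2_nonneg _) h1 ?_
  have h2 : Tendsto (fun j => ‖B.D (v j)‖) atTop (𝓝 0) := by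
    have := hD.norm
    simpa using this
  simpa using h2.const_mul (Real.sqrt C)

variable {c : Chart n X → Chart n X → X → ℂ} {φ : Chart n X → Cm n → ℝ}
  {w : Chart n X → Cm n → Matrix (Fin n) (Fin n) ℂ}
  {hc : IsCoc c} {hφ : IsWt c φ} {hw : IsKahler w} {k : ℕ}

/-- the vector valued function `u • dz_1 ∧ … ∧ dz_n` -/
def tv (u : Cm n → ℂ) : Cm n → EuclideanSpace ℂ (FI n) := fun z => WithLp.toLp 2 (u z • ev Finset.univ)

theorem testV_tv {Ω : Set (Cm n)} {u : Cm n → ℂ} (hu : ContDiff ℝ ∞ u) (hs : HasCompactSupport u)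
    (hsub : tsupport u ⊆ Ω) : TestV Ω (tv u) := by
  have h1 : tsupport (tv u) ⊆ tsupport u := by
    refine closure_mono fun z hz h0 => hz ?_
    show WithLp.toLp 2 (u z • ev Finset.univ) = 0
    rw [h0, zero_smul]; rfl
  refine ⟨?_, hs.of_isClosed_subset (isClosed_tsupport _) h1, h1.trans hsub⟩
  refine (PiLp.contDiff_toLp (p := 2)).comp ?_
  exact hu.smul contDiff_const

/-- the section `u • dz_1 ∧ … ∧ dz_n`, extended by zero -/
def sc (hc : IsCoc c) (hφ : IsWt c φ) (hw : IsKahler w) (k : ℕ) (e : Chart n X) (u : Cm n → ℂ) :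
    (Bk hc hφ hw k).S := (Bk hc hφ hw k).ext e e (tv u)

section

variable {e : Chart n X} {u : Cm n → ℂ}

theorem sc_supp (he : e ∈ atlas (Cm n) X) (hu : ContDiff ℝ ∞ u) (hs : HasCompactSupport u)
    (hsub : tsupport u ⊆ e.target) : Supp (sc hc hφ hw k e u) e (e.symm '' tsupport u) where
  mem := he
  closed := ((show IsCompact (tsupport u) from hs).image_of_continuousOn
    (e.continuousOn_symm.mono hsub)).isClosed
  sub := by rintro _ ⟨z, hz, rfl⟩; exact e.map_target (hsub hz)
  zero i e' x hx hi hxK := by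
    have hd : TestV (dom (lb hc k) e e) (tv u) := by
      rw [dom_eq he]; exact testV_tv hu hs hsub
    have h1 := HB.ext_f (B := Bk hc hφ hw k) he hd
    have h2 : (sc hc hφ hw k e u).f = cut (lb hc k) (extF (lb hc k) e e fun z => (tv u z).ofLp) := h1
    rw [h2, cut_at (L := lb hc k) hx (show x ∈ (lb hc k).U i from hi)]
    by_cases h : x ∈ e.source ∧ x ∈ (lb hc k).U e
    · rw [extF_at hx h.1 h.2]
      have h3 : e x ∉ tsupport u := fun h4 => hxK ⟨_, h4, e.left_inv h.1⟩
      have h5 : (tv u (e x)).ofLp = 0 := by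
        show u (e x) • ev Finset.univ = 0
        rw [image_eq_zero_of_notMem_tsupport h3, zero_smul]
      show _ *ᵥ (tv u (e x)).ofLp = 0
      rw [h5, Matrix.mulVec_zero]
    · exact extF_at' hx h

theorem sc_self (he : e ∈ atlas (Cm n) X) (hu : ContDiff ℝ ∞ u) (hs : HasCompactSupport u)
    (hsub : tsupport u ⊆ e.target) (z : Cm n) :
    (sc hc hφ hw k e u).f e e z = u z • ev Finset.univ := by
  by_cases hz : z ∈ e.target
  · have hd : TestV (dom (lb hc k) e e) (tv u) := by
      rw [dom_eq he]; exact testV_tv hu hs hsub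
    have hz' : z ∈ dom (lb hc k) e e := by rw [dom_eq he]; exact hz
    exact HB.ext_self (B := Bk hc hφ hw k) he hd hz'
  · have h1 : z ∉ tsupport u := fun h => hz (hsub h)
    rw [image_eq_zero_of_notMem_tsupport h1, zero_smul]
    exact (sc hc hφ hw k e u).off fun h => hz h.2.1

theorem sc_top (he : e ∈ atlas (Cm n) X) (hu : ContDiff ℝ ∞ u) (hs : HasCompactSupport u)
    (hsub : tsupport u ⊆ e.target) : (Bk hc hφ hw k).dg n (sc hc hφ hw k e u) = sc hc hφ hw k e u := by
  have hS := sc_supp (hc := hc) (hφ := hφ) (hw := hw) (k := k) he hu hs hsub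
  apply HB.S.ext_f
  intro i e' x hx hi
  have h1 : ((Bk hc hφ hw k).dg n (sc hc hφ hw k e u)).f i e' (e' x) =
      dgl (fun q => if q = n then 1 else 0) *ᵥ (sc hc hφ hw k e u).f i e' (e' x) :=
    HB.dgc_at (B := Bk hc hφ hw k) _ _ hx hi
  rw [h1]
  by_cases hxK : x ∈ e.symm '' tsupport u
  · have hxe : P272.K.At e x := ⟨he, hS.sub hxK⟩
    have h2 := (sc hc hφ hw k e u).isSec.change i e e' e x hx hxe hi hxe
    have h3 : (dgl (fun q => if q = n then 1 else 0) : FM n) *ᵥ (ev Finset.univ : Fk n) =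
        ev Finset.univ := by
      rw [dgl_ev, Finset.card_univ, Fintype.card_fin, if_pos rfl, one_smul]
    rw [h2, sc_self he hu hs hsub, Matrix.mulVec_mulVec, Matrix.mul_smul, dgl_lam,
      ← Matrix.smul_mul, ← Matrix.mulVec_mulVec, Matrix.mulVec_smul (dgl _), h3]
  · rw [hS.zero i e' x hx hi hxK, Matrix.mulVec_zero]

theorem sc_sum {N : ℕ} {us : Fin N → Cm n → ℂ} (he : e ∈ atlas (Cm n) X)
    (hu : ∀ j, ContDiff ℝ ∞ (us j)) (hs : ∀ j, HasCompactSupport (us j))
    (hsub : ∀ j, tsupport (us j) ⊆ e.target) (a : Fin N → ℂ) :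
    ∑ j, a j • sc hc hφ hw k e (us j) = sc hc hφ hw k e (fun z => ∑ j, a j * us j z) := by
  have hu' : ContDiff ℝ ∞ (fun z => ∑ j, a j * us j z) :=
    ContDiff.sum fun j _ => contDiff_const.mul (hu j)
  have hK : IsCompact (⋃ j, tsupport (us j)) := isCompact_iUnion fun j => hs j
  have hsupp : tsupport (fun z => ∑ j, a j * us j z) ⊆ ⋃ j, tsupport (us j) := by
    refine closure_minimal (fun z hz => ?_) hK.isClosed
    by_contra hcon
    refine hz (Finset.sum_eq_zero fun j _ => ?_)
    rw [image_eq_zero_of_notMem_tsupport fun h => hcon (mem_iUnion.2 ⟨j, h⟩), mul_zero]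
  have hs' : HasCompactSupport (fun z => ∑ j, a j * us j z) :=
    hK.of_isClosed_subset (isClosed_tsupport _) hsupp
  have hsub' : tsupport (fun z => ∑ j, a j * us j z) ⊆ e.target :=
    hsupp.trans (iUnion_subset hsub)
  have hS := fun j => sc_supp (hc := hc) (hφ := hφ) (hw := hw) (k := k) he (hu j) (hs j) (hsub j)
  have hS' := sc_supp (hc := hc) (hφ := hφ) (hw := hw) (k := k) he hu' hs' hsub'
  apply HB.S.ext_f
  intro i e' x hx hi
  rw [HB.S.sum_f]
  simp only [Finset.sum_apply]
  by_cases hxe : x ∈ e.source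
  · have hx' : P272.K.At e x := ⟨he, hxe⟩
    have h2 := (sc hc hφ hw k e (fun z => ∑ j, a j * us j z)).isSec.change i e e' e x hx hx' hi hx'
    have h3 := fun j => (sc hc hφ hw k e (us j)).isSec.change i e e' e x hx hx' hi hx'
    rw [h2, sc_self he hu' hs' hsub']
    have h4 : ∀ j, (a j • sc hc hφ hw k e (us j)).f i e' (e' x) =
        ((lb hc k).g i e x • lam (jacM e' e x)ᵀ) *ᵥ ((a j * us j (e x)) • ev Finset.univ) := by
      intro j
      show a j • (sc hc hφ hw k e (us j)).f i e' (e' x) = _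
      rw [h3 j, sc_self he (hu j) (hs j) (hsub j), ← Matrix.mulVec_smul, smul_smul]
      rfl
    simp only [h4]
    rw [← Matrix.mulVec_sum, ← Finset.sum_smul]
    rfl
  · rw [hS'.zero i e' x hx hi fun h => hxe (hS'.sub h)]
    refine Finset.sum_eq_zero fun j _ => ?_
    show a j • (sc hc hφ hw k e (us j)).f i e' (e' x) = 0
    rw [(hS j).zero i e' x hx hi fun h => hxe ((hS j).sub h), smul_zero]

end

end Vale.Agent.P284.H747
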