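import Vale.Agent.P284.H747.MP

/-!
# P284: the canonical bundle as a Bogomolov sheaf
-/

open scoped Manifold ContDiff ComplexOrder Topology Matrix ComplexConjugate
open MeasureTheory Set Filter
open Vale.Agent.P272.K
open Vale.Agent.P272.KOD (PSec JetAt)
open Vale.Agent.P284.H248 (LineBundle Sec Mor IitakaGE IitakaEQ Special)

set_option linter.unusedSectionVars false

noncomputable section

namespace Vale.Agent.P284.H747

variable {n : ℕ} {X : Type} [TopologicalSpace X] [ChartedSpace (Cm n) X]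
  [IsManifold 𝓘(ℂ, Cm n) ω X]

variable (n X) in
/-- the canonical bundle -/
def KX : LineBundle n X where
  ι := {e : Chart n X // e ∈ atlas (Cm n) X}
  U e := e.1.source
  isOpen e := e.1.open_source
  cover x := ⟨⟨chartAt _ x, chart_mem_atlas _ _⟩, mem_chart_source _ _⟩
  g i j x := (jacM i.1 j.1 x).det
  holo i j e x he hi hj :=
    comp_chart (F := fun x => (jacM i.1 j.1 x).det) he (i := i.1) ⟨i.2, hi⟩
      (an_det ⟨i.2, hi⟩ ⟨j.2, hj⟩)
  ne_zero i j x hi hj := jacM_det_ne_zero ⟨i.2, hi⟩ ⟨j.2, hj⟩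
  cocycle i j k x hi hj hk := by
    rw [jacM_comp (e := i.1) (e' := j.1) (e'' := k.1) ⟨i.2, hi⟩ ⟨j.2, hj⟩ ⟨k.2, hk⟩,
      Matrix.det_mul, mul_comm]

/-- the standard form -/
def stdForm (n : ℕ) : (Cm n) [⋀^Fin n]→ₗ[ℂ] ℂ := (Pi.basisFun ℂ (Fin n)).det

theorem det_fderiv {e e' : Chart n X} {x : X} (hx : At e x) (hx' : At e' x) :
    LinearMap.det (fderiv ℂ (fun z => e' (e.symm z)) (e x)).toLinearMap = (jacM e e' x).det := by
  rw [← LinearMap.det_toMatrix']
  congr 1
  ext p i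
  have h1 : DifferentiableAt ℂ (fun z => e' (e.symm z)) (e x) :=
    (transition hx hx').differentiableAt (by simp)
  have h2 : DifferentiableAt ℂ (fun z => e' (e.symm z) p) (e x) := differentiableAt_pi.1 h1 p
  rw [LinearMap.toMatrix'_apply, jacM, Matrix.of_apply, Vale.Agent.P272.KOD.dz_eq_fderiv h2]
  rw [fderiv_apply h1]
  rfl

theorem stdForm_comp (L : Cm n →ₗ[ℂ] Cm n) :
    (stdForm n).compLinearMap L = LinearMap.det L • stdForm n := by
  ext v
  show (Pi.basisFun ℂ (Fin n)).det (L ∘ v) = LinearMap.det L * (Pi.basisFun ℂ (Fin n)).det v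
  rw [Module.Basis.det_comp]

variable (n X) in
/-- the identity `K_X → Ω^n` -/
def morK : Mor (KX n X) n where
  form i e z := (jacM e i.1 (e.symm z)).det • stdForm n
  holo i e x hx hi v := by
    show ContDiffAt ℂ ω (fun z => (jacM e i.1 (e.symm z)).det * stdForm n v) (e x)
    exact (an_det hx ⟨i.2, hi⟩).mul contDiffAt_const
  change i e e' x hx hx' hi := by
    show (jacM e i.1 (e.symm (e x))).det • stdForm n =
      ((jacM e' i.1 (e'.symm (e' x))).det • stdForm n).compLinearMap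
        (fderiv ℂ (fun z => e' (e.symm z)) (e x)).toLinearMap
    rw [hx.left_inv, hx'.left_inv]
    have h1 : ((jacM e' i.1 x).det • stdForm n).compLinearMap
        (fderiv ℂ (fun z => e' (e.symm z)) (e x)).toLinearMap =
        (jacM e' i.1 x).det • (stdForm n).compLinearMap
          (fderiv ℂ (fun z => e' (e.symm z)) (e x)).toLinearMap := rfl
    rw [h1, stdForm_comp, det_fderiv hx hx', smul_smul,
      jacM_comp hx hx' (show At i.1 x from ⟨i.2, hi⟩), Matrix.det_mul]
  glue i j e x hx hi hj := by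
    show (jacM e j.1 (e.symm (e x))).det • stdForm n =
      (jacM i.1 j.1 x).det • ((jacM e i.1 (e.symm (e x))).det • stdForm n)
    rw [hx.left_inv, smul_smul,
      jacM_comp hx (show At i.1 x from ⟨i.2, hi⟩) (show At j.1 x from ⟨j.2, hj⟩), Matrix.det_mul]

theorem stdForm_ne : stdForm n ≠ 0 := by
  intro h
  have h1 : stdForm n (Pi.basisFun ℂ (Fin n)) = 1 := Module.Basis.det_self _
  rw [h] at h1
  simp at h1

theorem morK_nonzero [Nonempty X] : (morK n X).Nonzero := by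
  obtain ⟨x⟩ := ‹Nonempty X›
  have hx : At (chartAt (Cm n) x) x := ⟨chart_mem_atlas _ _, mem_chart_source _ _⟩
  refine ⟨⟨_, hx.1⟩, _, x, hx, hx.2, ?_⟩
  show (jacM (chartAt (Cm n) x) (chartAt (Cm n) x)
    ((chartAt (Cm n) x).symm (chartAt (Cm n) x x))).det • stdForm n ≠ 0
  rw [hx.left_inv, jacM_self hx, Matrix.det_one, one_smul]
  exact stdForm_ne

/-- no line bundle has Iitaka dimension `> n` -/
theorem not_iitakaGE (L : LineBundle n X) : ¬ IitakaGE L (n + 1) := by
  rintro ⟨m, hm, s, i, e, x, hx, hi, h0, hl⟩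
  have h1 := hl.fintype_card_le_finrank
  have h2 : Module.finrank ℂ (Cm n →L[ℂ] ℂ) = n := by
    rw [← (LinearMap.toContinuousLinearMap (𝕜 := ℂ) (E := Cm n) (F' := ℂ)).finrank_eq]
    have := Subspace.dual_finrank_eq (K := ℂ) (V := Cm n)
    rw [show Module.finrank ℂ (Cm n →ₗ[ℂ] ℂ) = Module.finrank ℂ (Module.Dual ℂ (Cm n)) from rfl,
      this, Module.finrank_fin_fun]
  rw [h2, Fintype.card_fin] at h1
  omega

/-- the section of `KX` -/
def toSec {m : ℕ} (s : PSec n m X) : Sec (KX n X) m where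
  f i x := s.coeff i.1 (i.1 x)
  holo i e x hx hi := by
    refine comp_chart (F := fun x => s.coeff i.1 (i.1 x)) hx (i := i.1) ⟨i.2, hi⟩ ?_
    have h1 : (fun z => s.coeff i.1 (i.1 (i.1.symm z))) =ᶠ[𝓝 (i.1 x)] s.coeff i.1 := by
      filter_upwards [near_at (X := X) (e := i.1) (i := i.1) ⟨i.2, hi⟩ ⟨i.2, hi⟩] with z hz
      rw [hz.2.2]
    exact ((s.holo i.1 x ⟨i.2, hi⟩).contDiffAt).congr_of_eventuallyEq h1
  change i j x hi hj := by
    show s.coeff i.1 (i.1 x) = (jacM i.1 j.1 x).det ^ m * s.coeff j.1 (j.1 x)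
    rw [s.change i.1 j.1 x ⟨i.2, hi⟩ ⟨j.2, hj⟩, mul_comm]

theorem iitakaGE_of_jet {m : ℕ} (hm : 1 ≤ m) {x : X} (h : JetAt n m x) : IitakaGE (KX n X) n := by
  obtain ⟨s, e, hx, h0, hdet⟩ := h
  refine ⟨m, hm, fun a => toSec (s a), ⟨e, hx.1⟩, e, x, hx, hx.2, h0, ?_⟩
  have h1 : ∀ a : Fin n, (fun z => (toSec (s a.succ)).f ⟨e, hx.1⟩ (e.symm z) /
      (toSec (s 0)).f ⟨e, hx.1⟩ (e.symm z)) =ᶠ[𝓝 (e x)]
      fun z => (s a.succ).coeff e z / (s 0).coeff e z := by
    intro a
    filter_upwards [near_at hx hx] with z hz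
    show (s a.succ).coeff e (e (e.symm z)) / (s 0).coeff e (e (e.symm z)) = _
    rw [hz.2.2]
  have h1' := fun a => (h1 a).fderiv_eq (𝕜 := ℂ)
  simp only [h1']
  have hd : ∀ a : Fin n, DifferentiableAt ℂ
      (fun z => (s a.succ).coeff e z / (s 0).coeff e z) (e x) := fun a =>
    (((s a.succ).holo e x hx).div ((s 0).holo e x hx) h0).differentiableAt
  rw [Fintype.linearIndependent_iff]
  intro g hg
  by_contra hcon
  push_neg at hcon
  obtain ⟨i, hi⟩ := hcon
  apply hdet
  rw [← Matrix.exists_vecMul_eq_zero_iff]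
  refine ⟨g, fun h => hi (congrFun h i), ?_⟩
  ext j
  have h2 := congrArg (fun L : Cm n →L[ℂ] ℂ => L (Pi.single j 1)) hg
  simp only [ContinuousLinearMap.sum_apply, ContinuousLinearMap.smul_apply, smul_eq_mul,
    ContinuousLinearMap.zero_apply] at h2
  rw [Matrix.vecMul, dotProduct, Pi.zero_apply, ← h2]
  refine Finset.sum_congr rfl fun a _ => ?_
  rw [Matrix.of_apply, Vale.Agent.P272.KOD.dz_eq_fderiv (hd a)]

/-- a special manifold of positive dimension is not of general type -/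
theorem not_jet_of_special (hn : 1 ≤ n) [Nonempty X] (hsp : Special n X) {m : ℕ} (hm : 1 ≤ m)
    (x : X) : ¬ JetAt n m x := fun h =>
  hsp n hn le_rfl (KX n X) ⟨iitakaGE_of_jet hm h, not_iitakaGE _⟩ (morK n X) morK_nonzero

end Vale.Agent.P284.H747
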