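import Vale.Agent.P284.H747.Est
import Vale.Agent.P299.H863.Hh

/-!
# P284: comparison of volumes in charts
-/

open scoped Manifold ContDiff ComplexOrder Topology Matrix ComplexConjugate
open MeasureTheory Set Filter
open Vale.Agent.P272.K Vale.Agent.P299.H954 Vale.Agent.P299.IX
open Vale.Agent.P301.H862
open Vale.Agent.P272.K.INT (intX IsDensity intX_add intX_sub intX_const_mul intX_congr intX_nonneg
  intX_mono intX_of_support intX_sum)

set_option linter.unusedSectionVars false

noncomputable section

namespace Vale.Agent.P284.H747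

variable {n : ℕ} {X : Type} [TopologicalSpace X] [ChartedSpace (Cm n) X]
  [IsManifold 𝓘(ℂ, Cm n) ω X] [CompactSpace X] [T2Space X]
  {w : Chart n X → Cm n → Matrix (Fin n) (Fin n) ℂ} {f : X → ℝ}

theorem dens_w (hw : IsKahler w) : IsDensity (fun (e : Chart n X) z => (w e z).det.re) :=
  INT.isDensity_det hw.isForm hw.smooth

/-- the preimage in the chart of a subset of `X` -/
def pre (e : Chart n X) (V : Set X) : Set (Cm n) := e.target ∩ e.symm ⁻¹' V

theorem isOpen_pre (e : Chart n X) {V : Set X} (hV : IsOpen V) : IsOpen (pre e V) :=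
  e.isOpen_inter_preimage_symm hV

theorem pre_sub_image {e : Chart n X} {V T : Set X} (h : V ⊆ T) : pre e V ⊆ e '' T :=
  fun _ hz => ⟨_, h hz.2, e.right_inv hz.1⟩

theorem cpt_image {e : Chart n X} {T : Set X} (hT : IsClosed T) (h : T ⊆ e.source) :
    IsCompact (e '' T) := hT.isCompact.image_of_continuousOn (e.continuousOn.mono h)

theorem image_sub {e : Chart n X} {T : Set X} (h : T ⊆ e.source) : e '' T ⊆ e.target := by
  rintro _ ⟨x, hx, rfl⟩; exact e.map_source (h hx)

theorem det_pos_target (hw : IsKahler w) {e : Chart n X} (he : e ∈ atlas (Cm n) X) {z : Cm n}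
    (hz : z ∈ e.target) : 0 < (w e z).det.re := by
  have := C2.det_re_pos (hw.posDef e _ (P272.K.At.of_target he hz))
  rwa [e.right_inv hz] at this

theorem intOn_det (hw : IsKahler w) {e : Chart n X} (he : e ∈ atlas (Cm n) X) {T : Set X}
    (hT : IsClosed T) (hTe : T ⊆ e.source) : IntegrableOn (fun z => (w e z).det.re) (e '' T) :=
  (((dens_w hw).continuousOn he).mono (image_sub hTe)).integrableOn_compact (cpt_image hT hTe)

theorem vol_up (hw : IsKahler w) (hf : Continuous f) (hf0 : ∀ x, 0 ≤ f x) {e : Chart n X}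
    (he : e ∈ atlas (Cm n) X) {V : Set X} (hV : IsOpen V) (hVe : closure V ⊆ e.source) :
    ∫ z in pre e (V ∩ {x | 1 / 2 < f x}), (w e z).det.re ≤
      2 * intX (fun e z => f (e.symm z) * (w e z).det.re) := by
  set U := pre e (V ∩ {x | 1 / 2 < f x}) with hU
  have hUo : IsOpen U := isOpen_pre e (hV.inter (isOpen_lt continuous_const hf))
  have hUK : U ⊆ e '' closure V := pre_sub_image (inter_subset_left.trans subset_closure)
  have hKt : e '' closure V ⊆ e.target := image_sub hVe
  have hD := (dens_w hw).smul hf
  have hi1 := intOn_det hw he isClosed_closure hVe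
  have hi2 : IntegrableOn (fun z => f (e.symm z) * (w e z).det.re) (e '' closure V) :=
    ((hD.continuousOn he).mono hKt).integrableOn_compact (cpt_image isClosed_closure hVe)
  have h1 : ∫ z in U, (w e z).det.re ≤ ∫ z in U, 2 * (f (e.symm z) * (w e z).det.re) := by
    refine setIntegral_mono_on (hi1.mono_set hUK) ((hi2.mono_set hUK).const_mul 2)
      hUo.measurableSet fun z hz => ?_
    have h2 : 1 / 2 < f (e.symm z) := hz.2.2
    have h3 := det_pos_target hw he hz.1
    nlinarith
  refine h1.trans ?_
  rw [integral_const_mul]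
  refine mul_le_mul_of_nonneg_left ?_ (by norm_num)
  refine (setIntegral_mono_set hi2 ?_ (LE.le.eventuallyLE hUK)).trans ?_
  · filter_upwards [ae_restrict_mem (cpt_image isClosed_closure hVe).measurableSet] with z hz
    exact mul_nonneg (hf0 _) (det_pos_target hw he (hKt hz)).le
  · refine setIntegral_le_intX hD (fun e' x hx => ?_) he (cpt_image isClosed_closure hVe) hKt
    exact mul_nonneg (hf0 _) (C2.det_re_pos (hw.posDef e' x hx)).le

theorem vol_low (hw : IsKahler w) (hf : Continuous f) (hf0 : ∀ x, 0 ≤ f x)
    {V : Fin (INT.part n X).N → Set X} (hV : ∀ i, IsOpen (V i))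
    (hVs : ∀ i, tsupport ((INT.part n X).ρ i) ⊆ V i)
    (hVe : ∀ i, closure (V i) ⊆ ((INT.part n X).e i).source) :
    intX (fun (e : Chart n X) z => (w e z).det.re) -
        intX (fun (e : Chart n X) z => f (e.symm z) * (w e z).det.re) ≤
      ∑ i, ∫ z in pre ((INT.part n X).e i) (V i ∩ {x | f x < 1}),
        (w ((INT.part n X).e i) z).det.re := by
  have hD := dens_w hw
  have hDf := (dens_w hw).smul hf
  rw [← intX_sub hD hDf]
  refine Finset.sum_le_sum fun i _ => ?_
  set e := (INT.part n X).e i with he
  set ρ := (INT.part n X).ρ i with hρ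
  have hea : e ∈ atlas (Cm n) X := (INT.part n X).mem i
  set Q := pre e (V i ∩ {x | f x < 1}) with hQ
  have hQo : IsOpen Q := isOpen_pre e ((hV i).inter (isOpen_lt hf continuous_const))
  have hQK : Q ⊆ e '' closure (V i) := pre_sub_image (inter_subset_left.trans subset_closure)
  have hi1 : IntegrableOn (fun z => (w e z).det.re) Q :=
    (intOn_det hw hea isClosed_closure (hVe i)).mono_set hQK
  have hi2 := INT.integrableOn_part (INT.part n X) (hD.sub hDf) i
  have h1 : ∫ z in Q, (w e z).det.re = ∫ z in e.target, Q.indicator (fun z => (w e z).det.re) z := by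
    rw [setIntegral_indicator hQo.measurableSet,
      inter_eq_self_of_subset_right (show Q ⊆ e.target from fun z hz => hz.1)]
  rw [h1]
  refine setIntegral_mono_on hi2 ?_ e.open_target.measurableSet fun z hz => ?_
  · exact ((integrable_indicator_iff hQo.measurableSet).2 hi1).integrableOn
  · have h2 := det_pos_target hw hea hz
    have h3 : 0 ≤ ρ (e.symm z) := (INT.part n X).nonneg i _
    have h4 : ρ (e.symm z) ≤ 1 := by
      rw [← (INT.part n X).sum (e.symm z)]
      exact Finset.single_le_sum (f := fun i => (INT.part n X).ρ i (e.symm z))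
        (fun i _ => (INT.part n X).nonneg i _) (Finset.mem_univ i)
    by_cases hzQ : z ∈ Q
    · rw [indicator_of_mem hzQ]
      have h5 : f (e.symm z) < 1 := hzQ.2.2
      have h6 := hf0 (e.symm z)
      have h7 : (w e z).det.re - f (e.symm z) * (w e z).det.re ≤ (w e z).det.re := by nlinarith
      have h8 : 0 ≤ (w e z).det.re - f (e.symm z) * (w e z).det.re := by nlinarith
      calc ρ (e.symm z) * ((w e z).det.re - f (e.symm z) * (w e z).det.re)
          ≤ 1 * ((w e z).det.re - f (e.symm z) * (w e z).det.re) :=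
            mul_le_mul_of_nonneg_right h4 h8
        _ ≤ _ := by rw [one_mul]; exact h7
    · rw [indicator_of_notMem hzQ]
      by_cases hzV : e.symm z ∈ V i
      · have h5 : 1 ≤ f (e.symm z) := not_lt.1 fun h => hzQ ⟨hz, hzV, h⟩
        have h8 : (w e z).det.re - f (e.symm z) * (w e z).det.re ≤ 0 := by nlinarith
        exact mul_nonpos_of_nonneg_of_nonpos h3 h8
      · have h5 : ρ (e.symm z) = 0 := image_eq_zero_of_notMem_tsupport fun h => hzV (hVs i h)
        rw [h5, zero_mul]

end Vale.Agent.P284.H747
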