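import Vale.Agent.P284.H747.Reg

/-!
# P284: the space of sections of small energy
-/

open scoped Manifold ContDiff ComplexOrder Topology Matrix ComplexConjugate
open MeasureTheory Set Filter
open Vale.Agent.P272.K Vale.Agent.P272.K.C2 Vale.Agent.P299.H954 Vale.Agent.P299.IX
open Vale.Agent.P301.H599 Vale.Agent.P299.H863 Vale.Agent.P301.H862
open Vale.Agent.P299.IX.Fock
open Vale.Agent.P272.K.INT (intX IsDensity intX_add intX_sub intX_const_mul intX_congr intX_nonneg
  intX_mono intX_of_support intX_sum)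

set_option linter.unusedSectionVars false

noncomputable section

namespace Vale.Agent.P284.H747

section loc

variable {n : ℕ} {w : Cm n → Matrix (Fin n) (Fin n) ℂ} {φ : Cm n → ℝ} {k : ℕ} {z : Cm n}

theorem hp_top (hw : (w z).PosDef) (a b : ℂ) :
    G.hp (Hk φ w k) w z (a • ev Finset.univ) (b • ev Finset.univ) =
      a * conj b * (((w z).det.re * Real.exp (-(k * φ z)) : ℝ) : ℂ) := by
  have hd : (w z).det ≠ 0 := hw.det_pos.ne'
  have hd' : (((w z).det.re : ℝ) : ℂ) = (w z).det := C2.det_re_eq hw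
  have h1 : pr (Ld w z *ᵥ (a • ev Finset.univ)) (b • ev Finset.univ) = a * (w z).det⁻¹ * conj b := by
    rw [Ld, Matrix.mulVec_smul, lam_ev_univ, pr_smul_left, pr_smul_left, pr_smul_right,
      Matrix.det_nonsing_inv, Ring.inverse_eq_inv']
    have : pr (ev Finset.univ : Fk n) (ev Finset.univ) = 1 := by
      unfold pr
      rw [Finset.sum_eq_single Finset.univ]
      · simp [ev]
      · intro I _ hI; simp [ev, hI]
      · simp
    rw [this]; ring
  unfold G.hp G.rho Hk
  rw [h1]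
  push_cast
  rw [hd']
  field_simp

theorem DVb_top {u : Cm n → ℂ} (hu : DifferentiableAt ℝ u z) (b : Fin n) :
    DVb b (fun y => u y • (ev Finset.univ : Fk n)) z = dzb b u z • ev Finset.univ := by
  ext I
  show dzb b (fun y => u y * (ev Finset.univ : Fk n) I) z = dzb b u z * (ev Finset.univ : Fk n) I
  have h1 : (fun y => u y * (ev Finset.univ : Fk n) I) =
      fun y => (ev Finset.univ : Fk n) I * u y := by funext y; ring
  rw [h1, INT.dzb_const_mul _ hu, mul_comm]

theorem gradb_top (hw : (w z).PosDef) {u : Cm n → ℂ} (hu : DifferentiableAt ℝ u z) :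
    (G.gradb (Hk φ w k) w (fun y => u y • (ev Finset.univ : Fk n))
      (fun y => u y • (ev Finset.univ : Fk n)) z).re =
      (∑ l, ∑ b, (w z)⁻¹ b l * dzb b u z * (starRingEnd ℂ) (dzb l u z)).re *
        ((w z).det.re * Real.exp (-(k * φ z))) := by
  have h1 : G.gradb (Hk φ w k) w (fun y => u y • (ev Finset.univ : Fk n))
      (fun y => u y • (ev Finset.univ : Fk n)) z =
      (∑ l, ∑ b, (w z)⁻¹ b l * dzb b u z * (starRingEnd ℂ) (dzb l u z)) *
        (((w z).det.re * Real.exp (-(k * φ z)) : ℝ) : ℂ) := by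
    unfold G.gradb
    simp only [DVb_top hu, hp_top hw, Finset.sum_mul]
    refine Finset.sum_congr rfl fun l _ => Finset.sum_congr rfl fun b _ => ?_
    ring
  rw [h1, mul_comm, Complex.re_ofReal_mul, mul_comm]

end loc

theorem norm_sq_sum_orth {S : Type*} [NormedAddCommGroup S] [InnerProductSpace ℂ S] {N : ℕ}
    {v : Fin N → S} (h : ∀ i j, i ≠ j → inner ℂ (v i) (v j) = 0) :
    ‖∑ i, v i‖ ^ 2 = ∑ i, ‖v i‖ ^ 2 := by
  have h4 : ∀ u : S, (inner ℂ u u).re = ‖u‖ ^ 2 := fun u => inner_self_eq_norm_sq (𝕜 := ℂ) u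
  have h1 : inner ℂ (∑ i, v i) (∑ i, v i) = ∑ i, inner ℂ (v i) (v i) := by
    rw [sum_inner]
    refine Finset.sum_congr rfl fun i _ => ?_
    rw [inner_sum, Finset.sum_eq_single i (fun j _ hj => h i j hj.symm) (by simp)]
  have h2 := congrArg Complex.re h1
  rw [Complex.re_sum] at h2
  simpa only [h4] using h2

variable {n : ℕ} {X : Type} [TopologicalSpace X] [ChartedSpace (Cm n) X]
  [IsManifold 𝓘(ℂ, Cm n) ω X] [CompactSpace X] [T2Space X]
  {c : Chart n X → Chart n X → X → ℂ} {φ : Chart n X → Cm n → ℝ}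
  {w : Chart n X → Cm n → Matrix (Fin n) (Fin n) ℂ}
  {hc : IsCoc c} {hφ : IsWt c φ} {hw : IsKahler w} {k : ℕ}

theorem Supp.near_zero {s : (Bk hc hφ hw k).S} {e : Chart n X} {K : Set X} (h : Supp s e K)
    {i e' : Chart n X} {x : X} (hx : P272.K.At e' x) (hi : P272.K.At i x) (hxK : x ∉ K) :
    s.f i e' =ᶠ[𝓝 (e' x)] fun _ => 0 := by
  have h1 : ∀ᶠ z in 𝓝 (e' x), e'.symm z ∈ Kᶜ := by
    refine (e'.continuousAt_symm hx.mem_target).eventually_mem ?_
    rw [hx.left_inv]
    exact h.closed.isOpen_compl.mem_nhds hxK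
  filter_upwards [near_at hx hi, h1] with z hz hz1
  have := h.zero i e' (e'.symm z) hz.1 hz.2.1 hz1
  rwa [hz.2.2] at this

theorem Supp.D {s : (Bk hc hφ hw k).S} {e : Chart n X} {K : Set X} (h : Supp s e K) :
    Supp ((Bk hc hφ hw k).D s) e K where
  mem := h.mem
  closed := h.closed
  sub := h.sub
  zero i e' x hx hi hxK := by
    have h1 := h.near_zero hx hi hxK
    have h2 := HB.D_at (B := Bk hc hφ hw k) s hx (i := i) hi
    rw [h2, Dw_zero h1, zero_add]
    unfold De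
    have h3 : ∀ b, DVb b (s.f i e') (e' x) = 0 := fun b => DVb_zero h1
    simp [h3]

theorem Supp.inner_zero {s t : (Bk hc hφ hw k).S} {e : Chart n X} {K K' : Set X} (h : Supp s e K)
    (h' : Supp t e K') (hd : Disjoint K K') : inner ℂ s t = 0 := by
  show (Bk hc hφ hw k).ipB t.f s.f = 0
  have h1 : (Bk hc hφ hw k).ipB t.f s.f =
      P301.H862.intC (Bk hc hφ hw k).L (fun _ _ _ => 0) := by
    refine Vale.Agent.P301.H862.intC_congr fun i e' x hx hi => ?_
    show P301.H862.hw _ _ _ (t.f i e' (e' x)) (s.f i e' (e' x)) = 0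
    by_cases hxK : x ∈ K
    · rw [h'.zero i e' x hx hi fun h2 => Set.disjoint_left.1 hd hxK h2, hw_zero_left]
    · rw [h.zero i e' x hx hi hxK, hw_zero_right]
  rw [h1, Vale.Agent.P301.H862.intC_zero]

section W

variable {e : Chart n X} {u : Cm n → ℂ}

theorem sc_norm (he : e ∈ atlas (Cm n) X) (hu : ContDiff ℝ ∞ u) (hs : HasCompactSupport u)
    (hsub : tsupport u ⊆ e.target) :
    ‖sc hc hφ hw k e u‖ ^ 2 =
      ∫ z, ‖u z‖ ^ 2 * ((w e z).det.re * Real.exp (-(k * φ e z))) := by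
  rw [(sc_supp (hc := hc) (hφ := hφ) (hw := hw) (k := k) he hu hs hsub).norm_sq]
  congr 1
  funext z
  rw [sc_self he hu hs hsub]
  by_cases hz : z ∈ e.target
  · have hp : (w e z).PosDef := by
      have := hw.posDef e (e.symm z) (P272.K.At.of_target he hz)
      rwa [e.right_inv hz] at this
    rw [hp_top hp, Complex.mul_conj, ← Complex.ofReal_mul, Complex.ofReal_re,
      Complex.normSq_eq_norm_sq]
  · have h1 : u z = 0 := image_eq_zero_of_notMem_tsupport fun h => hz (hsub h)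
    rw [h1]
    simp [G.hp, pr]

theorem sc_D (he : e ∈ atlas (Cm n) X) (hu : ContDiff ℝ ∞ u) (hs : HasCompactSupport u)
    (hsub : tsupport u ⊆ e.target) :
    ‖(Bk hc hφ hw k).D (sc hc hφ hw k e u)‖ ^ 2 =
      ∫ z, (∑ l, ∑ b, (w e z)⁻¹ b l * dzb b u z * (starRingEnd ℂ) (dzb l u z)).re *
        ((w e z).det.re * Real.exp (-(k * φ e z))) := by
  rw [grad_top (sc_top he hu hs hsub),
    (sc_supp (hc := hc) (hφ := hφ) (hw := hw) (k := k) he hu hs hsub).grad]
  have hf : (sc hc hφ hw k e u).f e e = fun z => u z • (ev Finset.univ : Fk n) := by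
    funext z; exact sc_self he hu hs hsub z
  rw [hf]
  congr 1
  funext z
  by_cases hz : z ∈ e.target
  · have hp : (w e z).PosDef := by
      have := hw.posDef e (e.symm z) (P272.K.At.of_target he hz)
      rwa [e.right_inv hz] at this
    exact gradb_top hp ((hu.differentiable (by simp)).differentiableAt)
  · have h1 : u =ᶠ[𝓝 z] fun _ => 0 :=
      notMem_tsupport_iff_eventuallyEq.1 fun h => hz (hsub h)
    have h2 : ∀ b, dzb b u z = 0 := fun b => by rw [C2.dzb_congr b h1, C2.dzb_const]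
    have h3 : ∀ b, DVb b (fun y => u y • (ev Finset.univ : Fk n)) z = 0 := by
      intro b
      rw [DVb_top ((hu.differentiable (by simp)).differentiableAt), h2, zero_smul]
    unfold G.gradb
    simp [h2, h3, G.hp, pr]

/-- the space `W` -/
theorem exists_W (he : e ∈ atlas (Cm n) X) {N : ℕ} {us : Fin N → Cm n → ℂ} {Q : Set (Cm n)}
    (hQ : Q ⊆ e.target) {μ : ℝ}
    (h1 : ∀ j, ContDiff ℝ ∞ (us j) ∧ HasCompactSupport (us j) ∧ tsupport (us j) ⊆ Q ∧
        ∃ z, us j z ≠ 0)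
    (h2 : ∀ i j, i ≠ j → Disjoint (tsupport (us i)) (tsupport (us j)))
    (h3 : ∀ j, (∫ z, (∑ l, ∑ b, (w e z)⁻¹ b l * dzb b (us j) z *
            (starRingEnd ℂ) (dzb l (us j) z)).re * ((w e z).det.re * Real.exp (-(k * φ e z)))) ≤
          μ * ∫ z, ‖us j z‖ ^ 2 * ((w e z).det.re * Real.exp (-(k * φ e z)))) :
    ∃ W : Submodule ℂ (Bk hc hφ hw k).S, FiniteDimensional ℂ W ∧ Module.finrank ℂ W = N ∧
      (∀ u ∈ W, (Bk hc hφ hw k).dg n u = u) ∧
      ∀ u ∈ W, ‖(Bk hc hφ hw k).D u‖ ^ 2 ≤ μ * ‖u‖ ^ 2 := by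
  have hsub : ∀ j, tsupport (us j) ⊆ e.target := fun j => (h1 j).2.2.1.trans hQ
  set v : Fin N → (Bk hc hφ hw k).S := fun j => sc hc hφ hw k e (us j) with hv
  have hS : ∀ j, Supp (v j) e (e.symm '' tsupport (us j)) := fun j =>
    sc_supp he (h1 j).1 (h1 j).2.1 (hsub j)
  have hdis : ∀ i j, i ≠ j → Disjoint (e.symm '' tsupport (us i)) (e.symm '' tsupport (us j)) := by
    intro i j hij
    rw [Set.disjoint_left]
    rintro _ ⟨z, hz, rfl⟩ ⟨z', hz', hzz⟩
    have h4 : z' = z := by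
      have := congrArg e hzz
      rwa [e.right_inv (hsub j hz'), e.right_inv (hsub i hz)] at this
    rw [h4] at hz'
    exact Set.disjoint_left.1 (h2 i j hij) hz hz'
  have ho : ∀ i j, i ≠ j → inner ℂ (v i) (v j) = 0 := fun i j hij =>
    (hS i).inner_zero (hS j) (hdis i j hij)
  have hoD : ∀ i j, i ≠ j → inner ℂ ((Bk hc hφ hw k).D (v i)) ((Bk hc hφ hw k).D (v j)) = 0 :=
    fun i j hij => (hS i).D.inner_zero (hS j).D (hdis i j hij)
  have hne : ∀ j, v j ≠ 0 := by
    intro j h0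
    obtain ⟨z, hz⟩ := (h1 j).2.2.2
    have h4 := sc_self (hc := hc) (hφ := hφ) (hw := hw) (k := k) he (h1 j).1 (h1 j).2.1 (hsub j) z
    have h5 : (v j).f e e z = 0 := by rw [h0]; rfl
    have h6 := congrFun (h4.symm.trans h5) Finset.univ
    simp only [Pi.smul_apply, smul_eq_mul, Pi.zero_apply] at h6
    rw [show (ev Finset.univ : Fk n) Finset.univ = 1 by simp [ev], mul_one] at h6
    exact hz h6
  have hli : LinearIndependent ℂ v := linearIndependent_of_ne_zero_of_inner_eq_zero hne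
    fun i j hij => ho i j hij
  have hmem : ∀ u ∈ Submodule.span ℂ (Set.range v), ∃ a : Fin N → ℂ, ∑ j, a j • v j = u :=
    fun u hu => (Submodule.mem_span_range_iff_exists_fun ℂ).1 hu
  refine ⟨Submodule.span ℂ (Set.range v), FiniteDimensional.span_of_finite ℂ (Set.finite_range v), ?_,
    fun u hu => ?_, fun u hu => ?_⟩
  · rw [finrank_span_eq_card hli, Fintype.card_fin]
  · obtain ⟨a, rfl⟩ := hmem u hu
    rw [map_sum]
    refine Finset.sum_congr rfl fun j _ => ?_
    rw [map_smul]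
    congr 1
    exact sc_top he (h1 j).1 (h1 j).2.1 (hsub j)
  · obtain ⟨a, rfl⟩ := hmem u hu
    have e1 : ‖∑ j, a j • v j‖ ^ 2 = ∑ j, ‖a j‖ ^ 2 * ‖v j‖ ^ 2 := by
      rw [norm_sq_sum_orth fun i j hij => by
        rw [inner_smul_left, inner_smul_right, ho i j hij, mul_zero, mul_zero]]
      exact Finset.sum_congr rfl fun j _ => by rw [norm_smul, mul_pow]
    have e2 : ‖(Bk hc hφ hw k).D (∑ j, a j • v j)‖ ^ 2 =
        ∑ j, ‖a j‖ ^ 2 * ‖(Bk hc hφ hw k).D (v j)‖ ^ 2 := by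
      simp only [map_sum, map_smul]
      rw [norm_sq_sum_orth fun i j hij => by
        rw [inner_smul_left, inner_smul_right, hoD i j hij, mul_zero, mul_zero]]
      exact Finset.sum_congr rfl fun j _ => by rw [norm_smul, mul_pow]
    rw [e1, e2, Finset.mul_sum]
    refine Finset.sum_le_sum fun j _ => ?_
    have h4 : ‖(Bk hc hφ hw k).D (v j)‖ ^ 2 ≤ μ * ‖v j‖ ^ 2 := by
      rw [hv]
      simp only
      rw [sc_D he (h1 j).1 (h1 j).2.1 (hsub j), sc_norm he (h1 j).1 (h1 j).2.1 (hsub j)]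
      exact h3 j
    calc ‖a j‖ ^ 2 * ‖(Bk hc hφ hw k).D (v j)‖ ^ 2 ≤ ‖a j‖ ^ 2 * (μ * ‖v j‖ ^ 2) := by gcongr
      _ = _ := by ring

end W

end Vale.Agent.P284.H747
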